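import Vale.Agent.P283R.Cy.Mdb
import Vale.Agent.P283R.Cx.Sy

/-!
# P283R, block CX, step 2, row MDP: the places which are not trivial on the base
-/

open Set
open Vale.Agent.P297Z

noncomputable section

namespace Vale.Agent.P283R.Cx

open Vale.Agent.P287D Vale.Agent.P283M Vale.Agent.P283R.Cy Vale.Agent.P283R.Cx.Tz
open Vale.Agent.P283R.Cy.Md

namespace Mp

variable {K F : Type} [Field K] [Algebra ℂ K] [Field F] [Algebra ℂ F] [Algebra K F]
  [IsScalarTower ℂ K F] {c d k N q : ℕ} {ε : ℝ} {y : Fin d → K} {t : Fin k → F} {T : Set (Pl K)}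
  {D : Pl K → Fin k → ℤ} {s : Fin N → K} {a : Fin N → Fin k → ℤ}
  {f : Fin c → MvPolynomial (Fin N) ℂ} {h g : K} {δ b : Fin k → ℤ}

omit [IsScalarTower ℂ K F] in
/-- the order of a homogeneous element at a horizontal place -/
theorem ord_hor (t0 : ∀ i, t i ≠ 0) {V : Pl F} (tr : ∀ x : K, algebraMap K F x ∈ V.ring) {φ : K}
    (φ0 : φ ≠ 0) (e : Fin k → ℤ) :
    (V.ord (hm t φ e) : ℝ) = pa e fun i => (V.ord (t i) : ℝ) := by
  rw [Tz.ord_hm t0 V φ0, Trv.ord tr, zero_add, pa]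
  push_cast
  rfl

/-- the pair upstairs is lc, the variety is klt -/
theorem lk (hq : 0 < q) (hε : 0 < ε) (X : Dx q ε y T D s a f h g δ b) (x : Ext K d t) (V : Pl F)
    (hV : ∀ z ∈ Rg s a t, z ∈ V.ring) : 0 ≤ lt y t V - (V.ord (hm t h δ) : ℝ) / q ∧
      0 < lt y t V - (V.ord (hm t h δ) : ℝ) / q + (V.ord (hm t g b) : ℝ) / q := by
  have t0 := x.ind.ne_zero
  have q0 : (0 : ℝ) < q := Nat.cast_pos.2 hq
  have gn := fun j => Pl.ord_nonneg_of_mem _ (hV _ (gen_mem s a t j))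
  obtain ⟨tr, w⟩ | ⟨Q, l, w⟩ := dwn K F d k y t x X.fr V
  · obtain ⟨k1, k2⟩ := X.lw (fun i => (V.ord (t i) : ℝ)) fun j => by
      rw [← ord_hor t0 tr (X.cox.ne j)]
      exact_mod_cast gn j
    rw [ord_hor t0 tr X.h0, ord_hor t0 tr X.g0]
    refine ⟨by linarith [div_nonpos_of_nonpos_of_nonneg k1 q0.le], ?_⟩
    by_cases z : (fun i => (V.ord (t i) : ℝ)) = 0
    · have : ((1 : ℕ) : ℝ) ≤ lt y t V := Gp.lg_tor X.ff X.fr.ind x.ind x.gen tr
        (fun i => Int.cast_eq_zero.1 (congrFun z i)) one_pos fun _ _ _ => by simp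
      rw [z]
      simp only [pa, Pi.zero_apply, mul_zero, Finset.sum_const_zero, zero_div]
      push_cast at this
      linarith
    · linarith [div_lt_div_of_pos_right (k2 z) q0]
  · have b1 := hw_ver t0 X.cox.ne X.h0 X.hw l gn w
    have p : (0 : ℝ) < V.ord (algebraMap K F Q.t) := by exact_mod_cast l.e_pos
    have b2 : (0 : ℝ) ≤ V.ord (hm t g b) := by
      exact_mod_cast Pl.ord_nonneg_of_mem _ (hV _ (mem_Rg t0 X.gs))
    have := mul_pos hε p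
    exact ⟨by linarith, by linarith [div_nonneg b2 q0.le]⟩

/-- the hypothesis (H) at a centre over a proper closed subset of the base -/
theorem hyp (hε : 0 < ε) (X : Dx q ε y T D s a f h g δ b) (x : Ext K d t) {V : Pl F}
    (hV : ∀ z ∈ Rg s a t, z ∈ V.ring) {φ : K} (φ0 : φ ≠ 0) (v : V.rd (algebraMap K F φ) = 0)
    {G : Subgroup (F ≃ₐ[ℂ] F)} {r e : ℕ} (hG : (G : Set _) = Gr K t r) (dv : Dv G V e) :
    ε * e ≤ lt y t V - (V.ord (hm t h δ) : ℝ) / q := by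
  obtain ⟨tr, -⟩ | ⟨Q, l, w⟩ := dwn K F d k y t x X.fr V
  · have := (Cb.rd_eq_zero (tr φ)).1 v
    rw [Cb.mx_iff, Trv.ord tr] at this
    exact (this.elim ((map_ne_zero _).2 φ0) (lt_irrefl _)).elim
  · have b1 := hw_ver x.ind.ne_zero X.cox.ne X.h0 X.hw l
      (fun j => Pl.ord_nonneg_of_mem _ (hV _ (gen_mem s a t j))) w
    have le : (e : ℝ) ≤ V.ord (algebraMap K F Q.t) := by
      exact_mod_cast Int.le_of_dvd l.e_pos (dv _ ((map_ne_zero _).2 Q.t_ne) (fix_K hG _))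
    exact (mul_le_mul_of_nonneg_left le hε.le).trans b1

end Mp

/-- **MDP** -/
theorem mdp : MDP := by
  intro c d k q m ε hq hε cor K _ _ y T D s a f h g δ b X _ Q vt
  have hy := X.fr
  obtain ⟨F, _, _, _, _, t, x⟩ := Cx.ext K d k X.ff
  have t0 := x.ind.ne_zero
  obtain ⟨U, u₀, l, e, d0, w⟩ := lif K F d k y t x hy _ s a Q X.cox.ne vt.1
  obtain ⟨φ, φ1, φ0, φ2⟩ := vt.2
  have hU := rg_le fun j => (w j).1
  have φ3 : algebraMap K F φ ∈ Rg s a t := hm_deg0 t φ ▸ mem_Rg t0 φ1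
  have φ4 : U.rd (algebraMap K F φ) = 0 := (Cb.rd_eq_zero (hU _ φ3)).2 (by
    rw [Cb.mx_iff, l.ord φ]
    exact .inr (mul_pos l.e_pos φ2))
  obtain ⟨c', c1, c2⟩ := Cx.fin _ k a _ u₀ (-((m : ℤ) • δ)) _ d0 w fun r r0 =>
    (cor K F y t _ D s a f h g δ b r x hy X.cox X.ci X.h0 X.g0 X.gs X.eq r0 (Mp.lk hq hε X x) U hU
      fun G hG V hV e _ dv => Mp.hyp hε X x (fun z hz => (hV z hz).1) φ0 ((hV _ φ3).2.1 φ4)
        hG dv).imp fun _ p => ⟨fun i => by simpa using p.1 i, p.2⟩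
  refine ⟨c', c1, ld_pos t0 X.cox.ne l e hq (Nat.pos_of_ne_zero ?_) X.h0 c1 c2⟩
  rintro rfl
  rw [Nat.cast_zero, mul_zero, zero_mul] at c2
  exact c2.not_ge (Finset.sum_nonneg fun j _ =>
    mul_nonneg (Nat.cast_nonneg _) (Int.cast_nonneg (w j).1))

theorem mkf_of (h : CORp) : MK False := fun c d k q ε hq hε =>
  let ⟨m, m2, H⟩ := h d k q ε hq hε
  ⟨m, m2, mdp c d k q m ε hq hε (H c)⟩

end Vale.Agent.P283R.Cx
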