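import Vale.Agent.P283R.Cy.All
import Vale.Agent.P283R.Cx.Sy

/-!
# P283R, block CY: the places which are trivial on the base
-/

open Set

noncomputable section

namespace Vale.Agent.P283R.Cy

open Vale.Agent.P287D Vale.Agent.P283M Vale.Agent.P283R.Cx Vale.Agent.P297Z
open Vale.Agent.P283R.To (mon mon_ne mon_add ord_mon)

/-- the places which are trivial on the base, in terms of weights only -/
def HzD (c d k q : ℕ) (ε : ℝ) (m : ℕ) : Prop :=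
  ∀ (K : Type) [Field K] [Algebra ℂ K] (y : Fin d → K) (T : Set (Pl K)) (D : Pl K → Fin k → ℤ)
    (s : Fin (d + k + c) → K) (a : Fin (d + k + c) → Fin k → ℤ)
    (f : Fin c → MvPolynomial (Fin (d + k + c)) ℂ) (h₀ g : K) (e₀ b : Fin k → ℤ),
    Eqv T D (kap y) h₀ e₀ → Dx q ε y T D s a f (h₀ ^ q * g) g ((q : ℤ) • e₀ + b) b →
    ∀ Q : Pl K, (∀ x ∈ Sp s a 0, x ≠ 0 → Q.ord x = 0) →
      MN q m y s a (h₀ ^ q * g) ((q : ℤ) • e₀ + b) Q

/-- **HZD**: the index may depend on `c` and `k` -/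
def HZD : Prop := ∀ (c d k q : ℕ) (ε : ℝ), 0 < q → 0 < ε → ∃ m : ℕ, 1 ≤ m ∧ HzD c d k q ε m

/-- **HZC**: the index does not depend on `k` -/
def HZC : Prop := ∀ (c d q : ℕ) (ε : ℝ), 0 < q → 0 < ε → ∃ m : ℕ, 1 ≤ m ∧ ∀ k, HzD c d k q ε m

theorem HzD.hzB {c k n q m : ℕ} {ε : ℝ} (H : HzD c (n + 1) k q ε m) : HzB c k n q ε m :=
  fun K _ _ _ _ _ _ y D s a f h₀ g e₀ b Y X => H K y _ D s a f h₀ g e₀ b Y.can X

/-- all contractions, the index does not depend on `k` -/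
theorem qyc_of (h1 : MC False) (h2 : HZC) (h3 : TPY) {q : ℕ} (hq : 0 < q) (c n : ℕ) (ε : ℝ)
    (hε : 0 < ε) : ∃ M, 1 ≤ M ∧ ∀ k, QyB c k n q ε M :=
  let ⟨m, m2, H⟩ := h1 c (n + 1) q ε hq hε
  let ⟨m', m1, H'⟩ := h2 c (n + 1) q ε hq hε
  ⟨q * (m * m'), Nat.mul_pos hq (Nat.mul_pos (by omega) m1), fun k =>
    h3 c k n q m m' ε hq hε m2 m1 (H k) (H' k).hzB⟩

namespace Hl

variable {K : Type} [Field K] [Algebra ℂ K] {d k N n k' N' q : ℕ} {a : Fin N → Fin k → ℤ}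
  {s : Fin N → K}

theorem mn_mul (hs : ∀ j, s j ≠ 0) {y : Fin d → K} {m l : ℕ} (hq : 0 < q) (hm : 0 < m) (hl : 0 < l)
    {h : K} (h0 : h ≠ 0) {δ : Fin k → ℤ} {Q : Pl K} (H : MN q m y s a h δ Q) :
    MN q (m * l) y s a h δ Q := by
  obtain ⟨c, c1, c2⟩ := H
  have e : (fun j => ((l * c j : ℕ) : ℤ)) = (l : ℤ) • fun j => (c j : ℤ) := by
    funext j; simp
  refine ⟨fun j => l * c j, ?_, ?_⟩
  · rw [← dz_nat, e, map_smul, dz_nat, c1, smul_neg, smul_smul, mul_comm, Nat.cast_mul]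
  · rw [← mon_nat, ld_iff hq hm h0 (mon_ne hs _), ord_mon Q hs] at c2
    rw [← mon_nat, ld_iff hq (Nat.mul_pos hm hl) h0 (mon_ne hs _), ord_mon Q hs]
    have := mul_lt_mul_of_pos_left c2 (show (0 : ℝ) < l by exact_mod_cast hl)
    push_cast at this ⊢
    simp only [mul_assoc, ← Finset.mul_sum]
    linarith

/-- integer Helly at one place -/
theorem core (hs : ∀ j, s j ≠ 0) (hq : 0 < q) {M : ℕ} (M0 : 0 < M) {y : Fin d → K} {h : K}
    (h0 : h ≠ 0) {δ : Fin k → ℤ} {Q : Pl K} (S : Spl a n) (t₀ : Finset (Fin N))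
    (t1 : t₀.card ≤ n) (H : ∀ k' ≤ 2 ^ n + n, ∀ e : Fin k' → Fin N, Function.Injective e →
      (∀ j ∈ t₀, j ∈ range e) → ∃ (N' : ℕ) (r : Fin N' ≃ Fin k' ⊕ Fin n ⊕ Fin n),
        MN q M y (S.sj s r) (S.aj e r) (h * mon s (-S.σ δ)) (S.σ δ ∘ e) Q) :
    MN q M y s a h δ Q := by
  have h' : h * mon s (-S.σ δ) ≠ 0 := mul_ne_zero h0 (mon_ne hs _)
  obtain ⟨v, v1, v2⟩ := He.helly_rays Finset.univ (fun j l => (S.μ (Pi.single l 1) j : ℝ))
    (fun j => (M : ℝ) * S.σ δ j) (fun l => (Q.ord (mon s (S.μ (Pi.single l 1))) : ℝ))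
    (M * (q * (1 + kap y Q) - Q.ord (h * mon s (-S.σ δ)))) fun J _ hJ => by
      let e := (J ∪ t₀).orderEmbOfFin rfl
      have he : ∀ j ∈ J ∪ t₀, j ∈ range e := fun j hj => by
        rw [Finset.range_orderEmbOfFin]; exact hj
      obtain ⟨N', r, u, u1, u2⟩ := H _ ((Finset.card_union_le J t₀).trans (add_le_add hJ t1)) e
        e.injective fun j hj => he j (Finset.mem_union_right _ hj)
      obtain ⟨v, v1, v2⟩ := (S.mon_iff hs e r _ _).1 ⟨u, u1, rfl⟩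
      rw [← v2, ld_iff hq M0 h' (mon_ne hs _), lin_ord hs] at u2
      refine ⟨v, fun j hj => ?_, by exact_mod_cast u2⟩
      obtain ⟨i, rfl⟩ := he j (Finset.mem_union_left _ hj)
      have := v1 i
      rw [lin] at this
      have : (0 : ℝ) ≤ -(M * S.σ δ (e i)) + ∑ l, (v l : ℝ) * S.μ (Pi.single l 1) (e i) := by
        exact_mod_cast this
      linarith
  have e1 : (fun j => (((S.μ v j - M * S.σ δ j).toNat : ℕ) : ℤ)) = S.μ v + -((M : ℤ) • S.σ δ) :=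
    funext fun j => by
      have : (M : ℤ) * S.σ δ j ≤ S.μ v j := by
        rw [lin S.μ]; exact_mod_cast v1 j (Finset.mem_univ j)
      simp only [Pi.add_apply, Pi.neg_apply, Pi.smul_apply, smul_eq_mul]
      omega
  refine ⟨fun j => (S.μ v j - M * S.σ δ j).toNat, ?_, ?_⟩
  · rw [← dz_nat, e1, map_add, map_neg, map_smul, S.ker, S.sec, zero_add]
  · rw [← mon_nat, e1, ld_iff hq M0 h0 (mon_ne hs _), mon_add hs,
      ord_tw hs Q (mon_ne hs _), lin_ord hs]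
    rw [ord_tw hs Q h0] at v2
    have : Q.ord (mon s ((M : ℤ) • S.σ δ)) = M * Q.ord (mon s (S.σ δ)) := by
      simp only [ord_mon Q hs, Pi.smul_apply, smul_eq_mul, mul_assoc, Finset.mul_sum]
    rw [this]
    push_cast at v2 ⊢
    linarith

omit [Algebra ℂ K] in
theorem tw_eq (hs : ∀ j, s j ≠ 0) (S : Spl a n) (h₀ g : K) (e₀ b : Fin k → ℤ) :
    h₀ ^ q * g * mon s (-S.σ ((q : ℤ) • e₀ + b)) =
      (h₀ * mon s (-S.σ e₀)) ^ q * (g * mon s (-S.σ b)) := by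
  have : mon s (-((q : ℤ) • S.σ e₀)) = mon s (-S.σ e₀) ^ q := by
    simpa using mon_sum hs (fun _ : Unit => -S.σ e₀) fun _ => q
  rw [map_add, map_smul, neg_add, mon_add hs, this]
  ring

theorem ord_nn {Q : Pl K} {e : Fin k → ℤ} (h : ∀ c, dg a c = e → 0 ≤ Q.ord (∏ j, s j ^ c j))
    {x : K} (hx : x ∈ Sp s a e) (x0 : x ≠ 0) : 0 ≤ Q.ord x := by
  have : Sp s a e ≤ Q.sub 0 := Submodule.span_le.2 (by
    rintro _ ⟨c, hc, rfl⟩
    exact .inr (by exact_mod_cast (h c hc).trans_eq (add_zero _).symm))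
  have := (this hx).resolve_left x0
  exact_mod_cast (add_zero (Q.ord x : ℝ)) ▸ this

open Vtj in
/-- the place lies over the base of a localization at few generators -/
theorem vth (S : Spl a n) (hs : ∀ j, s j ≠ 0) {Q : Pl K}
    (hQ : ∀ c, dg a c = 0 → 0 ≤ Q.ord (∏ j, s j ^ c j)) :
    ∃ t : Finset (Fin N), t.card ≤ n ∧ ∀ (k' N' : ℕ) (e : Fin k' → Fin N)
      (r : Fin N' ≃ Fin k' ⊕ Fin n ⊕ Fin n), (∀ j ∈ t, j ∈ range e) →
        ∀ c, dg (S.aj e r) c = 0 → 0 ≤ Q.ord (∏ j, S.sj s r j ^ c j) := by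
  classical
  obtain ⟨w, w0, hw⟩ := To.cone (fun j l => S.μ (Pi.single l 1) j)
    (fun l => Q.ord (mon s (S.μ (Pi.single l 1)))) fun m hm => by
      have e : (fun j => (((S.μ m j).toNat : ℕ) : ℤ)) = S.μ m :=
        funext fun j => Int.toNat_of_nonneg (by rw [mu_apply]; exact hm j)
      have := hQ (fun j => (S.μ m j).toNat) (by rw [← dz_nat, e, S.ker])
      rwa [← mon_nat, e, ord_mu S hs] at this
  obtain ⟨t, v, ht, v0, vt, -, hv⟩ :=
    He.cara (fun j l => ((S.μ (Pi.single l 1) j : ℤ) : ℝ)) w w0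
  refine ⟨t, ht, fun k' N' e r he c hc => ?_⟩
  obtain ⟨m, hm, e'⟩ := (S.mon_iff hs e r 0 _).1 ⟨c, hc, rfl⟩
  rw [← e', ord_mu S hs, ← Int.cast_nonneg_iff (R := ℝ)]
  have : ((m ⬝ᵥ fun l => Q.ord (mon s (S.μ (Pi.single l 1))) : ℤ) : ℝ) =
      ∑ j, v j * (S.μ m j : ℝ) := by
    simp only [dotProduct, Int.cast_sum, Int.cast_mul, hw, ← hv, Finset.mul_sum]
    rw [Finset.sum_comm]
    refine Finset.sum_congr rfl fun j _ => ?_
    rw [mu_apply S m j, dotProduct, Int.cast_sum, Finset.mul_sum]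
    exact Finset.sum_congr rfl fun l _ => by push_cast; ring
  rw [this]
  refine Finset.sum_nonneg fun j _ => ?_
  by_cases hj : j ∈ t
  · obtain ⟨i, rfl⟩ := he j hj
    exact mul_nonneg (v0 _) (Int.cast_nonneg_iff.2 (by simpa using hm i))
  · rw [vt j hj, zero_mul]

end Hl

open Hl in
/-- **Helly at the horizontal places** -/
theorem hzc (H' : HZD) : HZC := by
  intro c d q ε hq hε
  choose m m2 hm using fun k' => mkF (c + (d + c)) d k' q ε hq hε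
  choose m' m1 hm' using fun k' => H' (c + (d + c)) d k' q ε hq hε
  have m0 : ∀ i, 0 < m i := fun i => by have := m2 i; omega
  set M := ∏ i ∈ Finset.range (2 ^ (d + c) + (d + c) + 1), m i * m' i with hM
  have M0 : 0 < M := Finset.prod_pos fun i _ => Nat.mul_pos (m0 i) (m1 i)
  refine ⟨M, M0, fun k K _ _ y T D s a f h₀ g e₀ b E X Q hQ => ?_⟩
  have hs := X.cox.ne
  obtain ⟨S⟩ := lat k (d + c) _ a (by omega) (surj X.cox)
  obtain ⟨t₀, t1, t2⟩ := vth S hs (Q := Q) fun u hu =>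
    (hQ _ (hu ▸ mon_mem s a u) (mon_nat s u ▸ mon_ne hs _)).ge
  refine core hs hq M0 X.h0 S t₀ t1 fun k' hk e he ht => ?_
  let r : Fin (d + k' + (c + (d + c))) ≃ Fin k' ⊕ Fin (d + c) ⊕ Fin (d + c) :=
    Fintype.equivOfCardEq (by simp; omega)
  obtain ⟨f', X'⟩ := dx cxj cij wtj X S he r
  obtain ⟨l, hl⟩ : m k' * m' k' ∣ M := Finset.dvd_prod_of_mem _ (Finset.mem_range.2 (by omega))
  have l0 : 0 < l := Nat.pos_of_ne_zero fun h => by rw [h] at hl; omega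
  refine ⟨_, r, ?_⟩
  by_cases hv : ∃ x ∈ Sp (S.sj s r) (S.aj e r) 0, x ≠ 0 ∧ 0 < Q.ord x
  · rw [hl, mul_assoc]
    exact mn_mul X'.cox.ne hq (m0 _) (Nat.mul_pos (m1 _) l0) X'.h0
      (hm _ K y _ _ _ _ f' _ _ _ _ X' False.elim Q ⟨t2 _ _ e r ht, hv⟩)
  · have d1 : S.σ ((q : ℤ) • e₀ + b) ∘ e = (q : ℤ) • (S.σ e₀ ∘ e) + S.σ b ∘ e := by
      rw [map_add, map_smul]; rfl
    rw [tw_eq hs, d1] at X' ⊢
    rw [hl, mul_comm (m k'), mul_assoc]
    refine mn_mul X'.cox.ne hq (m1 _) (Nat.mul_pos (m0 _) l0) X'.h0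
      (hm' _ K y _ _ _ _ f' _ _ _ _ ⟨mul_ne_zero E.1 (mon_ne hs _), fun P hP => ?_⟩ X' Q
        fun x hx x0 => le_antisymm (not_lt.1 fun h => hv ⟨x, hx, x0, h⟩)
          (ord_nn (t2 _ _ e r ht) hx x0))
    rw [E.2 P hP.1, ord_tw hs P E.1, ord_TJ hs he hP, S.sec]
    push_cast
    ring

/-- all contractions, any number of divisors -/
theorem qyc (h : HZD) (h' : TPY) {q : ℕ} (hq : 0 < q) (c n : ℕ) (ε : ℝ) (hε : 0 < ε) :
    ∃ M, 1 ≤ M ∧ ∀ k, QyB c k n q ε M := qyc_of mcF (hzc h) h' hq c n ε hε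

end Vale.Agent.P283R.Cy
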