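import Vale.Agent.P283R.Cy.Sb

/-!
# P283R, block CY: the ring of the sections of the localized data
-/

open Set

noncomputable section

namespace Vale.Agent.P283R.Cy

open Vale.Agent.P287D Vale.Agent.P283R.Cx Vale.Agent.P297Z
open Vale.Agent.P283R.To (mon mon_ne)

namespace Cxj

variable {K : Type} [Field K] [Algebra ℂ K] {k N n k' N' : ℕ} {a : Fin N → Fin k → ℤ}
  {s : Fin N → K} {T : Set (Pl K)} {D : Pl K → Fin k → ℤ} {e : Fin k' → Fin N}

theorem dv_nn (x : Cox T D s a) {P : Pl K} (hP : P ∈ T) (j : Fin N) : 0 ≤ dv D s a P j := by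
  refine (x.sec _ _ (x.ne j)).1 ?_ P hP
  have := mon_mem s a (Pi.single j 1)
  rwa [dg_single, Finset.prod_eq_single j (fun l _ h => by simp [h]) (by simp),
    Pi.single_eq_same, pow_one] at this

theorem val (hs : ∀ j, s j ≠ 0) (D : Pl K → Fin k → ℤ) (P : Pl K) {φ : K} (φ0 : φ ≠ 0)
    (v : Fin N → ℤ) :
    P.ord (φ * mon s v) + dz a v ⬝ᵥ D P = P.ord φ + ∑ j, v j * dv D s a P j := by
  rw [Pl.ord_mul _ φ0 (mon_ne hs v), add_assoc, ord_dv hs]

theorem val' (hs : ∀ j, s j ≠ 0) (he : Function.Injective e) {P : Pl K} (hP : P ∈ TJ T D s a e)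
    {φ : K} (φ0 : φ ≠ 0) (v : Fin N → ℤ) :
    P.ord (φ * mon s v) + dz a v ⬝ᵥ D P = P.ord φ + (v ∘ e) ⬝ᵥ DJ D s a e P := by
  rw [Pl.ord_mul _ φ0 (mon_ne hs v), add_assoc, ord_TJ hs he hP]

theorem one_mem (S : Spl a n) (hs : ∀ j, s j ≠ 0) (e : Fin k' → Fin N)
    (r : Fin N' ≃ Fin k' ⊕ Fin n ⊕ Fin n) {β : Fin k' → ℤ} (h : ∀ i, 0 ≤ β i) :
    (1 : K) ∈ Sp (S.sj s r) (S.aj e r) β := by
  rw [S.sp hs]
  exact Submodule.subset_span ⟨0, fun i => by simpa using h i, by simp [mon]⟩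

theorem sec (x : Cox T D s a) (S : Spl a n) (he : Function.Injective e)
    (r : Fin N' ≃ Fin k' ⊕ Fin n ⊕ Fin n) (β : Fin k' → ℤ) {φ : K} (φ0 : φ ≠ 0) :
    φ ∈ Sp (S.sj s r) (S.aj e r) β ↔ ∀ P ∈ TJ T D s a e, 0 ≤ P.ord φ + β ⬝ᵥ DJ D s a e P := by
  classical
  have hs := x.ne
  refine ⟨fun h P hP => ?_, fun h => ?_⟩
  · rw [S.sp hs] at h
    have := (P.mem_sub.1 ((Submodule.span_le (p := P.sub (β ⬝ᵥ DJ D s a e P : ℤ))).2 ?_
      h)).resolve_left φ0
    · exact_mod_cast this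
    · rintro _ ⟨m, hm, rfl⟩
      refine Or.inr ?_
      have k := ord_TJ hs he hP (S.μ m)
      rw [S.ker, zero_dotProduct, add_zero] at k
      rw [← k, ← Int.cast_add, ← add_dotProduct, Int.cast_nonneg_iff]
      exact Finset.sum_nonneg fun i _ => mul_nonneg ((hm i).trans_eq (add_comm _ _))
        (dv_nn x hP.1 _)
  · let v₀ : Fin N → ℤ := Function.extend e β 0
    obtain ⟨C, hC⟩ := ((x.fin (φ * mon s v₀) (dz a v₀)).toFinset.image fun P =>
      (-(P.ord (φ * mon s v₀) + dz a v₀ ⬝ᵥ D P)).toNat).exists_le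
    let w : Fin N → ℤ := fun j => if j ∈ range e then 0 else C
    have ev : (v₀ + w) ∘ e = β := funext fun i => by simp [v₀, w, he.extend_apply]
    have k := S.toW hs e r (v₀ + w) ((x.sec _ _ (mul_ne_zero φ0 (mon_ne hs (v₀ + w)))).2
      fun P hP => ?_)
    · rwa [ev, mon_neg, mul_inv_cancel_right₀ (mon_ne hs _)] at k
    by_cases hJ : P ∈ TJ T D s a e
    · rw [val' hs he hJ φ0, ev]
      exact h P hJ
    obtain ⟨j, hj, ne⟩ : ∃ j ∉ range e, dv D s a P j ≠ 0 := by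
      by_contra c
      exact hJ ⟨hP, fun j hj => by_contra fun ne => c ⟨j, hj, ne⟩⟩
    have k1 : -(P.ord (φ * mon s v₀) + dz a v₀ ⬝ᵥ D P) ≤ C := by
      by_cases z : P.ord (φ * mon s v₀) + dz a v₀ ⬝ᵥ D P = 0
      · rw [z]; simp
      · have := hC _ (Finset.mem_image_of_mem _ ((Finite.mem_toFinset _).2 ⟨hP, z⟩))
        omega
    have k2 : w j * dv D s a P j ≤ ∑ j, w j * dv D s a P j :=
      Finset.single_le_sum (f := fun j => w j * dv D s a P j) (fun j _ => mul_nonneg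
        (by simp only [w]; split_ifs <;> simp) (dv_nn x hP j)) (Finset.mem_univ j)
    have k3 := dv_nn x hP j
    have k4 : (C : ℤ) * 1 ≤ C * dv D s a P j :=
      mul_le_mul_of_nonneg_left (by omega) (Int.natCast_nonneg C)
    rw [val hs D P φ0] at k1 ⊢
    simp only [Pi.add_apply, add_mul, Finset.sum_add_distrib]
    simp only [w, if_neg hj] at k2 ⊢
    linarith

end Cxj

open Cxj in
/-- **CXJ** -/
theorem cxj : CXJ := by
  intro K _ _ k N n k' N' s a S e r hs he T D x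
  refine ⟨S.s_ne hs r, fun β φ φ0 => sec x S he r β φ0, fun φ β => ?_, fun φ => ?_, fun β => ?_⟩
  · have k : ∀ φ : K, φ ≠ 0 → {P | P ∈ TJ T D s a e ∧ P.ord φ + β ⬝ᵥ DJ D s a e P ≠ 0}.Finite :=
      fun φ φ0 => (x.fin (φ * mon s (Function.extend e β 0)) (dz a (Function.extend e β 0))).subset
        fun P hP => ⟨hP.1.1, by rw [val' hs he hP.1 φ0, Function.extend_comp he]; exact hP.2⟩
    by_cases φ0 : φ = 0
    · simpa [φ0] using k 1 one_ne_zero
    · exact k φ φ0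
  · obtain ⟨e₀, b, hb, c, hc, c0, rfl⟩ := x.fr0 φ
    rw [← S.sec e₀] at hb hc
    exact ⟨_, _, S.toW hs e r _ hb, _, S.toW hs e r _ hc, mul_ne_zero c0 (mon_ne hs _),
      (mul_div_mul_right _ _ (mon_ne hs _)).symm⟩
  · exact ⟨|β|, 1, one_mem S hs e r fun i => by
      have := neg_abs_le (β i)
      simp only [Pi.add_apply, Pi.abs_apply]
      linarith, 1, one_mem S hs e r fun i => abs_nonneg (β i), one_ne_zero, one_ne_zero⟩

end Vale.Agent.P283R.Cy
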