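import Vale.Agent.P283R.Cy.St
import Vale.Agent.P283R.Cx.Top
import Vale.Agent.P283R.Cx.Bas
import Vale.Agent.P283R.Cx.Ext
import Vale.Agent.P283R.Cx.Dwn
import Vale.Agent.P283R.Cx.Lif
import Vale.Agent.P283R.Cx.Fin

/-!
# P283R, block CY, row MDB: from the finite groups to the torus
-/

open Set
open Vale.Agent.P297Z

noncomputable section

namespace Vale.Agent.P283R.Cy

open Vale.Agent.P287D Vale.Agent.P283M Vale.Agent.P283R.Cx Vale.Agent.P283R.Cx.Tz

namespace Md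

variable {K F : Type} [Field K] [Algebra ℂ K] [Field F] [Algebra ℂ F] [Algebra K F] {d k N : ℕ}
  {t : Fin k → F} {s : Fin N → K} {a : Fin N → Fin k → ℤ}

/-- the order of a homogeneous element at a vertical place -/
theorem ord_ver (t0 : ∀ i, t i ≠ 0) {U : Pl F} {Q : Pl K} (l : Lies (algebraMap K F) U Q) {φ : K}
    (h : φ ≠ 0) (e : Fin k → ℤ) : (U.ord (hm t φ e) : ℝ) = U.ord (algebraMap K F Q.t) *
      (Q.ord φ + pa e fun i => (U.ord (t i) : ℝ) / U.ord (algebraMap K F Q.t)) := by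
  have p : (0 : ℝ) < U.ord (algebraMap K F Q.t) := by exact_mod_cast l.e_pos
  rw [Tz.ord_hm t0 U h, l.ord φ, mul_add, pa, Finset.mul_sum]
  push_cast
  exact congrArg _ (Finset.sum_congr rfl fun i _ => by field_simp)

/-- the weight form of the hypotheses gives the bound at all vertical places -/
theorem hw_ver (t0 : ∀ i, t i ≠ 0) (s0 : ∀ j, s j ≠ 0) {q : ℕ} {ε : ℝ} {y : Fin d → K} {h : K}
    (h0 : h ≠ 0) {δ : Fin k → ℤ} (hw : HW q ε y s a h δ) {U : Pl F} {Q : Pl K}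
    (l : Lies (algebraMap K F) U Q) (hU : ∀ j, 0 ≤ U.ord (hm t (s j) (a j)))
    (w : U.ord (algebraMap K F Q.t) * (1 + kap y Q) ≤ lt y t U) :
    ε * U.ord (algebraMap K F Q.t) ≤ lt y t U - (U.ord (hm t h δ) : ℝ) / q := by
  have p : (0 : ℝ) < U.ord (algebraMap K F Q.t) := by exact_mod_cast l.e_pos
  have := mul_le_mul_of_nonneg_left (hw Q _ fun j => nonneg_of_mul_nonneg_right
    (by rw [← ord_ver t0 l (s0 j)]; exact_mod_cast hU j) p) p.le
  rw [ord_ver t0 l h0, mul_div_assoc]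
  linarith

omit [Algebra ℂ K] in
theorem fix_adj {G : Subgroup (F ≃ₐ[ℂ] F)} {r : ℕ} (hG : (G : Set _) = Gr K t r) {z : F}
    (hz : z ∈ IntermediateField.adjoin K (range fun i => t i ^ r)) : Fix G z := by
  intro σ hσ
  induction hz using IntermediateField.adjoin_induction with
  | mem x hx => obtain ⟨i, rfl⟩ := hx; exact fix_t hG i σ hσ
  | algebraMap x => exact fix_K hG x σ hσ
  | add x y _ _ hx hy => rw [map_add, hx, hy]
  | inv x _ hx => rw [map_inv₀, hx]
  | mul x y _ _ hx hy => rw [map_mul, hx, hy]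

end Md

open Md in
/-- **MDB** -/
theorem mdb : MDB := by
  intro c d k q m ε hq hε cor K _ _ y T D s a f h g δ b X all Q vt
  have hy := X.fr
  obtain ⟨F, _, _, _, _, t, x⟩ := Cx.ext K d k X.ff
  have t0 := x.ind.ne_zero
  have hyp : ∀ r : ℕ, 0 < r → ∀ G : Subgroup (F ≃ₐ[ℂ] F), (G : Set _) = Gr K t r → ∀ U : Pl F,
      (∀ x ∈ Rg s a t, x ∈ U.ring) → ∀ e : ℕ, 0 < e → Dv G U e →
        min ε 1 * e ≤ lt y t U - (U.ord (hm t h δ) : ℝ) / q := by
    intro r r0 G hG U hU e e0 dv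
    have e0' : (0 : ℝ) ≤ e := Nat.cast_nonneg _
    obtain ⟨tr, -⟩ | ⟨Q, l, w⟩ := dwn K F d k y t x hy U
    · have z : ∀ e : Fin k → ℤ, 0 ≤ ∑ i, e i * U.ord (t i) := fun e => by
        obtain ⟨φ, p, φ0⟩ := all trivial e
        have := Pl.ord_nonneg_of_mem _ (hU _ (hm_mem grd x hy p))
        rwa [Tz.ord_hm t0 U φ0, Trv.ord tr, zero_add] at this
      have z0 : ∀ i, U.ord (t i) = 0 := fun i => by
        have b1 := z (Pi.single i 1)
        have b2 := z (Pi.single i (-1))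
        rw [Finset.sum_eq_single i (fun j _ c => by simp [c]) (by simp), Pi.single_eq_same] at b1 b2
        omega
      have : (e : ℝ) ≤ lt y t U := Gp.lg_tor X.ff hy.ind x.ind x.gen tr z0 r0
        fun z hz z0 => dv z z0 (fix_adj hG hz)
      rw [Tz.ord_hm t0 U X.h0, Trv.ord tr]
      simp only [z0, Int.cast_zero, Finset.sum_const_zero, mul_zero, add_zero, zero_div, sub_zero]
      nlinarith [min_le_right ε 1]
    · have b1 := hw_ver t0 X.cox.ne X.h0 X.hw l (fun j => Pl.ord_nonneg_of_mem _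
        (hU _ (Algebra.subset_adjoin ⟨j, rfl⟩))) w
      have le : (e : ℝ) ≤ U.ord (algebraMap K F Q.t) := by
        exact_mod_cast Int.le_of_dvd l.e_pos (dv _ ((map_ne_zero _).2 Q.t_ne) (fix_K hG _))
      nlinarith [min_le_left ε 1]
  obtain ⟨U, u₀, l, e, d0, w⟩ := lif K F d k y t x hy _ s a Q X.cox.ne vt.1
  obtain ⟨c', c1, c2⟩ := Cx.fin _ k a _ u₀ (-((m : ℤ) • δ)) _ d0 w fun r r0 =>
    (cor K F y t _ D s a f h g δ b r x hy X.cox X.ci X.h0 X.g0 X.gs X.eq r0 (hyp r r0) U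
      (rg_le fun j => (w j).1)).imp fun _ p => ⟨fun i => by simpa using p.1 i, p.2⟩
  refine ⟨c', c1, ld_pos t0 X.cox.ne l e hq (Nat.pos_of_ne_zero ?_) X.h0 c1 c2⟩
  rintro rfl
  rw [Nat.cast_zero, mul_zero, zero_mul] at c2
  exact c2.not_ge (Finset.sum_nonneg fun j _ =>
    mul_nonneg (Nat.cast_nonneg _) (Int.cast_nonneg (w j).1))

end Vale.Agent.P283R.Cy
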