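import Vale.Agent.P283R.Cy.St
import Vale.Agent.P283R.Cx.Bas
import Vale.Agent.P283R.Cx.Bak
import Vale.Agent.P283R.Lp.A
import Vale.Agent.P283M.Br.Klr

/-!
# P283R, block CY: the tier side
-/

open Set

noncomputable section

namespace Vale.Agent.P283R.Cy

open Vale.Agent.P287D Vale.Agent.P283M Vale.Agent.P283R.Cx Vale.Agent.P297Z
open Vale.Agent.P283R.To (mon mon_ne ord_mon)

namespace Tpb

variable {K : Type} [Field K] [Algebra ℂ K] {n k N : ℕ} {u : Finset K} {Λ Γ Γ' : BD K}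
  {T : Set (Pl K)} {D : Pl K → Fin k → ℤ} {s : Fin N → K} {a : Fin N → Fin k → ℤ}

theorem pa_dg (a : Fin N → Fin k → ℤ) (c : Fin N → ℕ) (ξ : Fin k → ℝ) :
    pa (dg a c) ξ = ∑ j, (c j : ℝ) * pa (a j) ξ := by
  simp only [pa, dg, Finset.mul_sum]
  rw [Finset.sum_comm]
  refine Finset.sum_congr rfl fun i _ => ?_
  push_cast
  rw [Finset.sum_mul]
  exact Finset.sum_congr rfl fun j _ => mul_assoc _ _ _

theorem pa_sum {ι : Type} [Fintype ι] (z : ι → ℤ) (e : ι → Fin k → ℤ) (ξ : Fin k → ℝ) :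
    pa (∑ i, z i • e i) ξ = ∑ i, (z i : ℝ) * pa (e i) ξ := by
  simp only [pa, Finset.mul_sum, Finset.sum_apply, Pi.smul_apply, smul_eq_mul]
  rw [Finset.sum_comm]
  refine Finset.sum_congr rfl fun i _ => ?_
  push_cast
  rw [Finset.sum_mul]
  exact Finset.sum_congr rfl fun j _ => mul_assoc _ _ _

theorem pa_zero (ξ : Fin k → ℝ) : pa (0 : Fin k → ℤ) ξ = 0 := by simp [pa]

/-- the weights of the sections -/
theorem wt (s0 : ∀ j, s j ≠ 0) {P : Pl K} {ξ : Fin k → ℝ}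
    (h : ∀ j, 0 ≤ (P.ord (s j) : ℝ) + pa (a j) ξ) {e : Fin k → ℤ} {φ : K} (hφ : φ ∈ Sp s a e)
    (φ0 : φ ≠ 0) : 0 ≤ (P.ord φ : ℝ) + pa e ξ := by
  refine (P.mem_sub.1 (Submodule.span_le.2 ?_ hφ)).resolve_left φ0
  rintro _ ⟨c, rfl, rfl⟩
  refine Or.inr ?_
  rw [P.ord_prod _ fun j _ => pow_ne_zero _ (s0 j), pa_dg]
  push_cast
  rw [← Finset.sum_add_distrib]
  refine Finset.sum_nonneg fun j _ => ?_
  rw [Pl.ord_pow]
  push_cast
  rw [← mul_add]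
  exact mul_nonneg (Nat.cast_nonneg _) (h j)

/-- real combinations of homogeneous elements -/
theorem wr (x : Cox T D s a) {w : K → ℝ} {ξ : Fin k → ℝ}
    (hw : ∀ {ι : Type} [Fintype ι] (φ : ι → K) (z : ι → ℤ), (∀ i, φ i ≠ 0) →
      w (mon φ z) = ∑ i, z i * w (φ i))
    (h : ∀ e, ∀ φ ∈ Sp s a e, φ ≠ 0 → 0 ≤ w φ + pa e ξ) {ι : Type} [Fintype ι] (φ : ι → K)
    (e : ι → Fin k → ℤ) (c : ι → ℝ) (φ0 : ∀ i, φ i ≠ 0)
    (H : ∀ E ∈ T, 0 ≤ ∑ i, c i * (E.ord (φ i) + e i ⬝ᵥ D E : ℤ)) :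
    0 ≤ ∑ i, c i * (w (φ i) + pa (e i) ξ) := by
  classical
  have fin : (⋃ i, {E | E ∈ T ∧ E.ord (φ i) + e i ⬝ᵥ D E ≠ 0}).Finite :=
    finite_iUnion fun i => x.fin _ _
  have := Lp.cone_real (fun (E : fin.toFinset) i => E.1.ord (φ i) + e i ⬝ᵥ D E.1)
    (fun i => w (φ i) + pa (e i) ξ) (fun z hz => ?_) c fun E => ?_
  · simpa only [mul_comm] using this
  · have m0 := mon_ne φ0 z
    have := h (∑ i, z i • e i) _ ((x.sec _ _ m0).2 fun E hE => ?_) m0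
    · rw [hw φ z φ0, pa_sum, ← Finset.sum_add_distrib] at this
      simpa only [mul_comm, mul_add, add_mul] using this
    · have e1 : E.ord (mon φ z) + (∑ i, z i • e i) ⬝ᵥ D E =
          ∑ i, (E.ord (φ i) + e i ⬝ᵥ D E) * z i := by
        rw [ord_mon E φ0, sum_dotProduct, ← Finset.sum_add_distrib]
        exact Finset.sum_congr rfl fun i _ => by rw [smul_dotProduct, smul_eq_mul]; ring
      rw [e1]
      by_cases m : E ∈ fin.toFinset
      · exact hz ⟨E, m⟩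
      · refine Finset.sum_nonneg fun i _ => ?_
        have : E.ord (φ i) + e i ⬝ᵥ D E = 0 := by
          by_contra ne
          exact m (fin.mem_toFinset.2 (mem_iUnion.2 ⟨i, hE, ne⟩))
        rw [this, zero_mul]
  · obtain ⟨i, hi⟩ := mem_iUnion.1 (fin.mem_toFinset.1 E.2)
    simpa only [mul_comm] using H E.1 hi.1

/-- negativity in terms of weights -/
theorem neg (x : Cox T D s a) (hT : ∀ E ∈ T, Ov u E) {P : Pl K} (o : Ov u P) {ξ : Fin k → ℝ}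
    (h : ∀ j, 0 ≤ (P.ord (s j) : ℝ) + pa (a j) ξ) {β : BD K} (hβ : SmpO u β) {φ ψ : K}
    (φ0 : φ ≠ 0) (ψ0 : ψ ≠ 0) {e e' : Fin k → ℤ} {c c' : ℝ}
    (H : ∀ E ∈ T, β E ≤ c * (E.ord φ + e ⬝ᵥ D E : ℤ) + c' * (E.ord ψ + e' ⬝ᵥ D E : ℤ)) :
    β P ≤ c * (P.ord φ + pa e ξ) + c' * (P.ord ψ + pa e' ξ) := by
  classical
  obtain ⟨_, ⟨l, l0, rfl⟩, eγ⟩ := hβ
  have : ∀ v : Finset K, ∃ f : K, f ≠ 0 ∧ P.mz v = -P.ord f ∧ ∀ E : Pl K, -E.ord f ≤ E.mz v :=
    fun v => by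
      by_cases nz : Nz v
      · obtain ⟨f, hf, f0, e⟩ := P.exists_mz nz
        exact ⟨f, f0, e, fun E => E.le_mz hf f0⟩
      · exact ⟨1, one_ne_zero, by simp [P.mz_of_not nz], fun E => by simp [E.mz_of_not nz]⟩
  choose f f0 f1 f2 using this
  have ev : ∀ E : Pl K, cmb l E = ∑ v : l.support, l v * (E.mz v : ℝ) := fun E => by
    rw [cmb, Finsupp.sum, Finset.sum_apply, ← Finset.sum_coe_sort]
    rfl
  have := wr x (w := fun g => (P.ord g : ℝ)) (ξ := ξ)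
    (fun g z g0 => by rw [ord_mon P g0]; push_cast; rfl) (fun e g hg g0 => wt x.ne h hg g0)
    (fun i : Option (Option l.support) => i.elim φ fun i => i.elim ψ fun v => f v)
    (fun i => i.elim e fun i => i.elim e' fun _ => 0) (fun i => i.elim c fun i => i.elim c' fun v => l v)
    (by rintro (_ | _ | v); exacts [φ0, ψ0, f0 _]) fun E hE => ?_
  · rw [eγ P o, ev]
    simp only [Fintype.sum_option, Option.elim, pa_zero, add_zero] at this
    simp only [f1, Int.cast_neg, mul_neg, Finset.sum_neg_distrib]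
    linarith
  · have k1 := H E hE
    rw [eγ E (hT E hE), ev] at k1
    simp only [Fintype.sum_option, Option.elim, zero_dotProduct, add_zero]
    have k2 : ∑ v : l.support, l v * (-(E.ord (f v) : ℝ)) ≤ ∑ v : l.support, l v * (E.mz v : ℝ) :=
      Finset.sum_le_sum fun v _ => mul_le_mul_of_nonneg_left (by exact_mod_cast f2 v E) (l0 v)
    simp only [mul_neg, Finset.sum_neg_distrib] at k2
    linarith

theorem mem_zero (x : Cox (Tt n u Λ) D s a) {b : K} (hb : b ∈ u) (b0 : b ≠ 0) : b ∈ Sp s a 0 :=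
  (x.sec _ _ b0).2 fun E hE => by
    rw [zero_dotProduct, add_zero]
    exact Pl.ord_nonneg_of_mem _ (hE.1 b hb)

/-- a place with admissible weights lies over the base -/
theorem ov (x : Cox (Tt n u Λ) D s a) {P : Pl K} {ξ : Fin k → ℝ}
    (h : ∀ j, 0 ≤ (P.ord (s j) : ℝ) + pa (a j) ξ) : Ov u P := fun b hb => by
  by_cases b0 : b = 0
  · rw [b0]; exact zero_mem _
  have := wt x.ne h (mem_zero x hb b0) b0
  rw [pa_zero, add_zero] at this
  exact (Pl.ord_nonneg_iff _ b0).1 (by exact_mod_cast this)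

/-- `ε`-lc and nef in terms of weights -/
theorem hw {q : ℕ} {ε : ℝ} (hq : 0 < q) (dt : Dat n u Λ Γ Γ') (x : Cox (Tt n u Λ) D s a)
    {y : Fin (n + 1) → K} (hc : cn K (n + 1) = kap y) {h h₁ : K} {δ e₁ : Fin k → ℤ}
    (e : Eqv (Tt n u Λ) D ((q : ℝ) • Γ) h δ) (e' : Eqv (Tt n u Λ) D (cn K (n + 1)) h₁ e₁)
    (lc : ∀ P, Ov u P → ε ≤ 1 + dsc (n + 1) Γ P) (nef : NefO n K u (-Γ)) :
    HW q ε y s a h δ := fun P ξ H => by
  have o := ov x H
  have q0 : (0 : ℝ) < q := Nat.cast_pos.2 hq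
  have k : ∀ τ : ℝ, 0 < τ → -Γ P - τ * Γ' P ≤
      -(q : ℝ)⁻¹ * (P.ord h + pa δ ξ) + -τ * (P.ord h₁ + pa e₁ ξ) := fun τ τ0 =>
    neg x (fun E hE => hE.1) o H (Br.klr dt dt.dn.neg nef τ0) e.1 e'.1 fun E hE => by
      have k1 := e.2 E hE
      have k2 := e'.2 E hE
      have k3 := dt.bdy E hE.1 hE.2
      simp only [dsc, Pi.sub_apply, Pi.smul_apply, Pi.neg_apply, smul_eq_mul] at k1 k3 ⊢
      push_cast at k1 k2 ⊢
      rw [← k1, ← k2, neg_mul, inv_mul_cancel_left₀ q0.ne']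
      nlinarith
  have k' : -Γ P ≤ -(q : ℝ)⁻¹ * (P.ord h + pa δ ξ) := by
    refine le_of_forall_pos_le_add fun η η0 => ?_
    set r := Γ' P - (P.ord h₁ + pa e₁ ξ)
    have := k (η / (|r| + 1)) (by positivity)
    have k4 : η / (|r| + 1) * r ≤ η := by
      rw [div_mul_eq_mul_div, div_le_iff₀ (by positivity)]
      nlinarith [le_abs_self r]
    have : r = Γ' P - (P.ord h₁ + pa e₁ ξ) := rfl
    nlinarith
  have := lc P o
  rw [dsc, hc, Pi.sub_apply] at this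
  rw [div_eq_inv_mul]
  linarith

/-- the equation of `q (K + B)` -/
theorem eqv {q : ℕ} {h₁ g : K} {e₁ b : Fin k → ℤ} (e' : Eqv T D (cn K (n + 1)) h₁ e₁)
    (e : Eqv T D ((q : ℝ) • -dsc (n + 1) Γ) g b) :
    Eqv T D ((q : ℝ) • Γ) (h₁ ^ q * g) ((q : ℤ) • e₁ + b) :=
  ⟨mul_ne_zero (pow_ne_zero _ e'.1) e.1, fun E hE => by
    have k1 := e.2 E hE
    have k2 := e'.2 E hE
    rw [Pl.ord_mul _ (pow_ne_zero _ e'.1) e.1, Pl.ord_pow, add_dotProduct, smul_dotProduct]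
    simp only [dsc, Pi.sub_apply, Pi.smul_apply, Pi.neg_apply, smul_eq_mul] at k1 ⊢
    push_cast at k1 k2 ⊢
    rw [k2] at k1
    linarith⟩

theorem lw (all : ∀ e, ∃ φ ∈ Sp s a e, φ ≠ 0) (δ b : Fin k → ℤ) : LW a δ b := fun ξ H => by
  classical
  have k : ∀ e, 0 ≤ pa e ξ := fun e => by
    obtain ⟨φ, hφ, φ0⟩ := all e
    by_cases ne : ∃ c, dg a c = e
    · obtain ⟨c, rfl⟩ := ne
      rw [pa_dg]
      exact Finset.sum_nonneg fun j _ => mul_nonneg (Nat.cast_nonneg _) (H j)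
    · have : {c | dg a c = e} = ∅ := eq_empty_of_forall_notMem fun c hc => ne ⟨c, hc⟩
      rw [Sp, this, image_empty, Submodule.span_empty] at hφ
      exact (φ0 hφ).elim
  have z : ξ = 0 := funext fun i => by
    have k1 := k (Pi.single i 1)
    have k2 := k (Pi.single i (-1))
    rw [pa, Finset.sum_eq_single i (fun j _ h => by simp [h]) (by simp)] at k1 k2
    simp only [Pi.single_eq_same, Int.cast_neg, Int.cast_one] at k1 k2
    rw [Pi.zero_apply]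
    linarith
  exact ⟨by simp [z, pa], fun h => (h z).elim⟩

theorem vt (dt : Dat n u Λ Γ Γ') (x : Cox (Tt n u Λ) D s a) (all : ∀ e, ∃ φ ∈ Sp s a e, φ ≠ 0)
    {Q : Pl K} (o : Ov u Q) : Vt s a Q := by
  refine ⟨fun c hc => Bak.reg dt x (Finset.prod_ne_zero_iff.2 fun j _ => pow_ne_zero _ (x.ne j))
    (hc ▸ mon_mem s a c) o, ?_⟩
  obtain ⟨e, b, hb, c, hc, c0, eq⟩ := x.fr0 Q.t
  obtain ⟨w, hw, w0⟩ := all (-e)
  have b0 : b ≠ 0 := fun h => Q.t_ne (by rw [eq, h, zero_div])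
  have k1 := sp_mul hb hw
  have k2 := sp_mul hc hw
  rw [add_neg_cancel] at k1 k2
  refine ⟨_, k1, mul_ne_zero b0 w0, ?_⟩
  have k3 := Bak.reg dt x (mul_ne_zero c0 w0) k2 o
  have k4 := Q.ord_t
  rw [eq, Pl.ord_div _ b0 c0] at k4
  rw [Pl.ord_mul _ c0 w0] at k3
  rw [Pl.ord_mul _ b0 w0]
  omega

end Tpb

open Tpb in
/-- **TPB** -/
theorem tpb : TPB := by
  intro c k n q m ε hq hε m2 H K _ _ u Λ Γ Γ' D s a f dt x ci all ⟨h₁, e₁, e'⟩ ⟨g, b, e⟩ bd lc nef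
  obtain ⟨y, E, hy, hc⟩ := Cb.exists_cn dt.ff
  have ee := eqv e' e
  refine bak n k _ q m K u Λ Γ Γ' D s a y _ _ dt x ⟨E, hy⟩ hc (m2.trans (Nat.le_mul_of_pos_left _ hq))
    ee fun Q o => H K y _ D s a f _ g _ b ⟨dt.ff, ⟨E, hy⟩, x, ci, ee.1, e.1, ?_, fun P hP => ?_,
      hw hq dt x hc ee e' lc nef, lw all _ _⟩ (fun _ => all) Q (vt dt x all o)
  · refine (x.sec _ _ e.1).2 fun P hP => ?_
    have k1 := e.2 P hP
    have k2 := bd P hP
    rw [← Int.cast_nonneg_iff (R := ℝ), Int.cast_add, ← k1]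
    simp only [Pi.smul_apply, Pi.neg_apply, smul_eq_mul]
    exact mul_nonneg (Nat.cast_nonneg _) (neg_nonneg.2 k2)
  · have k1 := e.2 P hP
    have k2 := ee.2 P hP
    rw [Int.cast_add, Int.cast_add, ← k1, ← k2, dsc, hc]
    simp only [Pi.smul_apply, Pi.neg_apply, Pi.sub_apply, smul_eq_mul]
    ring

end Vale.Agent.P283R.Cy
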