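import Vale.Agent.P283R.Cy.Sb
import Vale.Agent.P283R.To.Tc
import Vale.Agent.P283R.He.Car

/-!
# P283R, block CY: the place lies over the base of a localization at few generators
-/

open Set

noncomputable section

namespace Vale.Agent.P283R.Cy

open Vale.Agent.P287D Vale.Agent.P283M Vale.Agent.P283R.Cx
open Vale.Agent.P283R.To (mon mon_ne mon_add ord_mon)

namespace Vtj

variable {k N n : ℕ} {a : Fin N → Fin k → ℤ}

theorem mu_apply (S : Spl a n) (m : Fin n → ℤ) (j : Fin N) :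
    S.μ m j = m ⬝ᵥ fun l => S.μ (Pi.single l 1) j := by
  conv_lhs => rw [← Finset.univ_sum_single m]
  simp only [map_sum, Finset.sum_apply, dotProduct]
  refine Finset.sum_congr rfl fun l _ => ?_
  rw [show (Pi.single l (m l) : Fin n → ℤ) = m l • Pi.single l 1 by
    rw [← Pi.single_smul, smul_eq_mul, mul_one], map_smul]
  rfl

variable {K : Type} [Field K] [Algebra ℂ K] {s : Fin N → K}

theorem ord_mu (S : Spl a n) (hs : ∀ j, s j ≠ 0) (Q : Pl K) (m : Fin n → ℤ) :
    Q.ord (mon s (S.μ m)) = m ⬝ᵥ fun l => Q.ord (mon s (S.μ (Pi.single l 1))) := by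
  simp only [ord_mon Q hs, dotProduct, Finset.mul_sum]
  rw [Finset.sum_comm]
  refine Finset.sum_congr rfl fun j _ => ?_
  rw [mu_apply S m j, dotProduct, Finset.sum_mul]
  exact Finset.sum_congr rfl fun l _ => mul_assoc _ _ _

end Vtj

open Vtj in
theorem vtj : VTJ := by
  classical
  intro K _ _ k N n s a S Q hs hQ
  obtain ⟨w, w0, hw⟩ := To.cone (fun j l => S.μ (Pi.single l 1) j)
    (fun l => Q.ord (mon s (S.μ (Pi.single l 1)))) fun m hm => by
      have e : (fun j => (((S.μ m j).toNat : ℕ) : ℤ)) = S.μ m :=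
        funext fun j => Int.toNat_of_nonneg (by rw [mu_apply]; exact hm j)
      have := hQ.1 (fun j => (S.μ m j).toNat) (by rw [← dz_nat, e, S.ker])
      rwa [← mon_nat, e, ord_mu S hs] at this
  obtain ⟨t, v, ht, v0, vt, -, hv⟩ :=
    He.cara (fun j l => ((S.μ (Pi.single l 1) j : ℤ) : ℝ)) w w0
  refine ⟨t, ht, fun k' N' e r he => ⟨fun c hc => ?_, ?_⟩⟩
  · obtain ⟨m, hm, e'⟩ := (S.mon_iff hs e r 0 _).1 ⟨c, hc, rfl⟩
    rw [← e', ord_mu S hs, ← Int.cast_nonneg_iff (R := ℝ)]
    have : ((m ⬝ᵥ fun l => Q.ord (mon s (S.μ (Pi.single l 1))) : ℤ) : ℝ) =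
        ∑ j, v j * (S.μ m j : ℝ) := by
      simp only [dotProduct, Int.cast_sum, Int.cast_mul, hw, ← hv, Finset.mul_sum]
      rw [Finset.sum_comm]
      refine Finset.sum_congr rfl fun j _ => ?_
      rw [mu_apply S m j, dotProduct, Int.cast_sum, Finset.mul_sum]
      exact Finset.sum_congr rfl fun l _ => by push_cast; ring
    rw [this]
    refine Finset.sum_nonneg fun j _ => ?_
    by_cases hj : j ∈ t
    · obtain ⟨i, rfl⟩ := he j hj
      exact mul_nonneg (v0 _) (Int.cast_nonneg_iff.2 (by simpa using hm i))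
    · rw [vt j hj, zero_mul]
  · obtain ⟨x, hx, x0, h⟩ := hQ.2
    have := S.toW hs e r 0 (x := x) (by rwa [map_zero])
    refine ⟨x, ?_, x0, h⟩
    simpa [mon] using this

end Vale.Agent.P283R.Cy
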