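import Vale.Agent.P283R.Cy.Sb

/-!
# P283R, block CY: the weights of the localized data
-/

open Set

noncomputable section

namespace Vale.Agent.P283R.Cy

open Vale.Agent.P297Z Vale.Agent.P287D Vale.Agent.P283R.Cx
open Vale.Agent.P283R.To (mon mon_ne ord_mon)

namespace Wt

/-- the pairing as a linear map -/
def pl {ι : Type} [Fintype ι] (ξ : ι → ℝ) : (ι → ℤ) →ₗ[ℤ] ℝ := Fintype.linearCombination ℤ ξ

theorem pa_eq {ι : Type} [Fintype ι] (v : ι → ℤ) (ξ : ι → ℝ) : pa v ξ = pl ξ v := by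
  simp [pa, pl, Fintype.linearCombination_apply]

theorem pl_single {ι : Type} [Fintype ι] [DecidableEq ι] (ξ : ι → ℝ) (i : ι) :
    pl ξ (Pi.single i 1) = ξ i := by simp [pl]

variable {k N n k' N' : ℕ} {a : Fin N → Fin k → ℤ}

theorem core (S : Spl a n) {e : Fin k' → Fin N} (he : Function.Injective e)
    (r : Fin N' ≃ Fin k' ⊕ Fin n ⊕ Fin n) (o : Fin N → ℝ) (ξ' : Fin k' → ℝ)
    (H : ∀ j, 0 ≤ pa (S.μ (gJ (r j))) o + pa (S.aj e r j) ξ') :
    ∃ ξ : Fin k → ℝ, (∀ j, 0 ≤ o j + pa (a j) ξ) ∧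
      (∀ b, pa b ξ = pa (S.σ b ∘ e) ξ' - pa (S.σ b) o) ∧
      ∀ i, o (e i) + pa (a (e i)) ξ = ξ' i := by
  have H' : ∀ z : Fin k' ⊕ Fin n ⊕ Fin n,
      0 ≤ pl o (S.μ (gJ z)) + (pl ξ' (zJ z) - pl ξ' (S.μ (gJ z) ∘ e)) := fun z => by
    have := H (r.symm z)
    rwa [Spl.aj, Equiv.apply_symm_apply, pa_eq, pa_eq, map_sub] at this
  have p : ∀ i, 0 ≤ ξ' i := fun i => by
    have := H' (.inl i)
    rwa [gJ, zJ, Sum.elim_inl, Sum.elim_inl, Pi.zero_apply, map_zero, map_zero, Pi.zero_comp,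
      map_zero, pl_single, zero_add, sub_zero] at this
  let x : Fin N → ℝ := Function.extend e ξ' 0
  have x0 : ∀ j, 0 ≤ x j := fun j => by
    by_cases h : ∃ i, e i = j
    · obtain ⟨i, rfl⟩ := h
      exact (p i).trans_eq (he.extend_apply ξ' 0 i).symm
    · exact (Function.extend_apply' ξ' (0 : Fin N → ℝ) j h).ge
  have px : ∀ v, pl (x - o) v = pl ξ' (v ∘ e) - pl o v := fun v => by
    have : pa (v ∘ e) ξ' = pa v x :=
      Finset.sum_of_injOn e he.injOn (fun _ _ => Finset.mem_univ _) (fun j _ hj => by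
        rw [show x j = 0 from Function.extend_apply' ξ' (0 : Fin N → ℝ) j (by simpa using hj),
          mul_zero])
        fun i _ => by rw [show x (e i) = ξ' i from he.extend_apply ξ' 0 i]; rfl
    rw [← pa_eq, ← pa_eq, ← pa_eq, this]
    simp only [pa, Pi.sub_apply, mul_sub, Finset.sum_sub_distrib]
  have k0 : pl (x - o) ∘ₗ S.μ = 0 := (Pi.basisFun ℤ _).ext fun l => by
    have h1 := H' (.inr (.inl l))
    have h2 := H' (.inr (.inr l))
    simp only [gJ, zJ, Sum.elim_inl, Sum.elim_inr, Pi.zero_apply, map_zero, map_neg,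
      Pi.neg_comp] at h1 h2
    rw [Pi.basisFun_apply, LinearMap.comp_apply, px, LinearMap.zero_apply]
    linarith
  have k1 : pl (fun i => pl (x - o) (S.σ (Pi.single i 1))) = pl (x - o) ∘ₗ S.σ :=
    (Pi.basisFun ℤ _).ext fun i => by rw [Pi.basisFun_apply, pl_single]; rfl
  have k2 : ∀ j, o j + pa (a j) (fun i => pl (x - o) (S.σ (Pi.single i 1))) = x j := fun j => by
    have := congrArg (pl (x - o)) (S.dec (Pi.single j 1))
    rw [map_add, dz_single, pl_single, show pl (x - o) (S.μ _) = 0 from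
      LinearMap.congr_fun k0 _, zero_add] at this
    rw [pa_eq, k1, LinearMap.comp_apply, this, Pi.sub_apply, add_sub_cancel]
  exact ⟨_, fun j => k2 j ▸ x0 j, fun b => by
    rw [pa_eq, pa_eq, pa_eq, k1, LinearMap.comp_apply, px],
    fun i => (k2 _).trans (he.extend_apply ξ' 0 i)⟩

end Wt

open Wt in
/-- **WTJ** -/
theorem wtj : WTJ := by
  intro K _ _ k N n k' N' s a S e r hs he
  refine ⟨fun d q ε y h δ h0 H P ξ' hξ => ?_, fun δ b H ξ' hξ => ?_⟩
  · have om : ∀ v, (P.ord (mon s v) : ℝ) = pa v fun j => P.ord (s j) := fun v => by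
      rw [ord_mon P hs, pa]
      push_cast
      rfl
    obtain ⟨ξ, h1, h2, -⟩ := core S he r (fun j => P.ord (s j)) ξ' fun j => om _ ▸ hξ j
    have := H P ξ h1
    rw [h2] at this
    rw [Pl.ord_mul _ h0 (mon_ne hs _), Int.cast_add, om, pa_eq (-S.σ δ), map_neg, ← pa_eq]
    convert this using 3
    ring
  · have z : ∀ v : Fin N → ℤ, pa v 0 = 0 := fun v => by simp [pa]
    obtain ⟨ξ, h1, h2, h3⟩ := core S he r 0 ξ' fun j => by rw [z, zero_add]; exact hξ j
    have := H ξ fun j => by simpa using h1 j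
    rw [h2, h2, z, z, sub_zero, sub_zero] at this
    exact ⟨this.1, fun h => this.2 fun e0 => h (funext fun i => by
      rw [← h3, e0]; simp [pa])⟩

end Vale.Agent.P283R.Cy
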