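import Vale.Agent.P283R.Cy.Hly
import Vale.Agent.P283R.To.Lin

/-!
# P283R, block CY: linear programming duality for the weights
-/

open Set

noncomputable section

namespace Vale.Agent.P283R.Cy

open Vale.Agent.P287D Vale.Agent.P283M Vale.Agent.P283R.Cx Vale.Agent.P297Z
open Vale.Agent.P283R.To (mon mon_ne mon_add ord_mon)

variable {K : Type} [Field K] [Algebra ℂ K] {d k N q : ℕ} {a : Fin N → Fin k → ℤ}
  {s : Fin N → K}

/-- affine Farkas lemma with an integral certificate -/
theorem lp_dual (a : Fin N → Fin k → ℤ) (w : Fin N → ℤ) (δ : Fin k → ℤ) {C C' : ℝ} (hC : C < C')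
    (h1 : ∀ ξ : Fin k → ℝ, (∀ j, 0 ≤ (w j : ℝ) + pa (a j) ξ) → pa δ ξ ≤ C)
    (h2 : ∀ ξ : Fin k → ℝ, (∀ j, 0 ≤ pa (a j) ξ) → pa δ ξ ≤ 0) :
    ∃ (r : ℕ) (c : Fin N → ℕ), 0 < r ∧ dg a c = -((r : ℤ) • δ) ∧
      ((∑ j, c j * w j : ℤ) : ℝ) < r * C' := by
  obtain ⟨ρ, r1, r2⟩ := exists_rat_btwn hC
  have d0 : (0 : ℝ) < ρ.den := by exact_mod_cast ρ.den_pos
  have dn : (ρ.num : ℝ) = ρ * ρ.den := by exact_mod_cast (Rat.mul_den_eq_num ρ).symm
  by_contra hn
  obtain ⟨u, hu⟩ := To.farkas_int' (fun (o : Option (Option (Fin N))) (i : Option (Fin k)) =>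
    o.elim (i.elim (-ρ.num) fun i => ρ.den * δ i) fun o => o.elim (i.elim 1 fun _ => 0)
      fun j => i.elim (w j) (a j)) (· = none) (by
    rintro x h0 hx _ rfl
    by_contra x0
    obtain ⟨L, hL⟩ := IsLocalization.exist_integer_multiples_of_finite (nonZeroDivisors ℤ) x
    choose z hz using hL
    have L0 : (L : ℤ) ≠ 0 := nonZeroDivisors.coe_ne_zero L
    have e : ∀ o, ((z o).natAbs : ℚ) = (L : ℤ).natAbs * x o := fun o => by
      have : (z o : ℚ) = (L : ℤ) * x o := by simpa using hz o
      rw [Nat.cast_natAbs, Nat.cast_natAbs, Int.cast_abs, Int.cast_abs, this, abs_mul,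
        abs_of_nonneg (h0 o)]
    have L1 : (0 : ℚ) < (L : ℤ).natAbs := by exact_mod_cast Int.natAbs_pos.2 L0
    have z0 : (0 : ℚ) < (z none).natAbs := e none ▸ mul_pos L1 ((h0 _).lt_of_ne' x0)
    refine hn ⟨(z none).natAbs * ρ.den, fun j => (z (some (some j))).natAbs,
      Nat.mul_pos (by exact_mod_cast z0) ρ.den_pos, funext fun i => ?_, ?_⟩
    · have := hx (some i)
      simp only [Fintype.sum_option, Option.elim] at this
      have h3 : ((dg a (fun j => (z (some (some j))).natAbs) i : ℤ) : ℚ) =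
          -(((z none).natAbs : ℚ) * ρ.den * δ i) := by
        simp only [dg, Int.cast_sum, Int.cast_mul, Int.cast_natCast, e, mul_assoc,
          ← Finset.mul_sum]
        push_cast at this
        linear_combination ((L : ℤ).natAbs : ℚ) * this
      rw [Pi.neg_apply, Pi.smul_apply, smul_eq_mul]
      generalize (z none).natAbs = t at *
      exact_mod_cast h3
    · have := hx none
      simp only [Fintype.sum_option, Option.elim] at this
      have h3 : ((∑ j, ((z (some (some j))).natAbs : ℤ) * w j : ℤ) : ℚ) ≤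
          ((z none).natAbs : ℚ) * ρ.num := by
        simp only [Int.cast_sum, Int.cast_mul, Int.cast_natCast, e, mul_assoc, ← Finset.mul_sum]
        refine mul_le_mul_of_nonneg_left ?_ L1.le
        have := h0 (some none)
        push_cast at *
        linarith
      have h4 : ((∑ j, ((z (some (some j))).natAbs : ℤ) * w j : ℤ) : ℝ) ≤
          ((z none).natAbs : ℝ) * ρ.num := by
        generalize (z none).natAbs = t at *
        generalize (∑ j, ((z (some (some j))).natAbs : ℤ) * w j : ℤ) = t' at *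
        have : t' ≤ t * ρ.num := by exact_mod_cast h3
        exact_mod_cast this
      have z1 : (0 : ℝ) < (z none).natAbs := by exact_mod_cast z0
      refine h4.trans_lt ?_
      rw [dn, Nat.cast_mul, mul_assoc, mul_comm (ρ : ℝ)]
      exact mul_lt_mul_of_pos_left (mul_lt_mul_of_pos_left r2 d0) z1)
  have u1 : (ρ.num : ℝ) * u none < ρ.den * pa δ fun i => u (some i) := by
    have := (hu none).2 rfl
    simp only [Fintype.sum_option, Option.elim, mul_assoc, ← Finset.mul_sum] at this
    have : (0 : ℝ) < -ρ.num * u none + ρ.den * ∑ i, (δ i : ℝ) * u (some i) := by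
      exact_mod_cast this
    rw [pa]; linarith
  have u2 : (0 : ℝ) ≤ u none := by simpa [Fintype.sum_option] using (hu (some none)).1
  have u3 : ∀ j, (0 : ℝ) ≤ w j * u none + pa (a j) fun i => u (some i) := fun j => by
    have := (hu (some (some j))).1
    simp only [Fintype.sum_option, Option.elim] at this
    rw [pa]; exact_mod_cast this
  rcases u2.eq_or_lt with h | h
  · rw [← h] at u1 u3
    have := h2 _ fun j => by simpa using u3 j
    nlinarith
  · have p : ∀ e : Fin k → ℤ, (pa e fun i => u (some i) / u none) =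
        (pa e fun i => u (some i)) / u none := fun e => by
      simp only [pa, Finset.sum_div, mul_div_assoc]
    have := h1 (fun i => u (some i) / u none) fun j => by
      rw [p, add_div' _ _ _ h.ne']; exact div_nonneg (u3 j) h.le
    rw [p, div_le_iff₀ h] at this
    rw [dn, mul_comm (ρ : ℝ), mul_assoc] at u1
    have := lt_of_mul_lt_mul_left u1 d0.le
    nlinarith

/-- at every place some monomial section is almost as good as the weights -/
theorem hw_mon {ε ε' : ℝ} (he : ε' < ε) (hq : 0 < q) {y : Fin d → K} {h : K} {δ b : Fin k → ℤ}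
    (hw : HW q ε y s a h δ) (lw : LW a δ b) (Q : Pl K) : ∃ (r : ℕ) (c : Fin N → ℕ), 0 < r ∧
      dg a c = -((r : ℤ) • δ) ∧ ((∑ j, c j * Q.ord (s j) : ℤ) : ℝ) <
        r * (q * (1 + kap y Q - ε') - Q.ord h) := by
  have q0 : (0 : ℝ) < q := by exact_mod_cast hq
  refine lp_dual a _ δ (C := q * (1 + kap y Q - ε) - Q.ord h) (by nlinarith) (fun ξ H => ?_)
    fun ξ H => (lw ξ H).1
  have := hw Q ξ H
  rw [le_sub_comm, div_le_iff₀ q0] at this
  linarith

/-- at every place there is a klt monomial section of some index -/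
theorem mn_ex (hs : ∀ j, s j ≠ 0) {ε : ℝ} (he : 0 < ε) (hq : 0 < q) {y : Fin d → K} {h : K}
    (h0 : h ≠ 0) {δ b : Fin k → ℤ} (hw : HW q ε y s a h δ) (lw : LW a δ b) (Q : Pl K) :
    ∃ r, 0 < r ∧ MN q r y s a h δ Q := by
  obtain ⟨r, c, r0, c1, c2⟩ := hw_mon he hq hw lw Q
  refine ⟨r, r0, c, c1, ?_⟩
  rw [← mon_nat, Hl.ld_iff hq r0 h0 (mon_ne hs _), ord_mon Q hs]
  rwa [sub_zero] at c2

end Vale.Agent.P283R.Cy
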