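import Vale.Agent.P283R.Cy.Sb

/-!
# P283R, block CY: the splitting of the degree map
-/

set_option linter.all false

noncomputable section

namespace Vale.Agent.P283R.Cy

/-- **LAT** -/
theorem lat : LAT := fun k n N a hN h => by
  obtain ⟨σ, hσ⟩ := Module.projective_lifting_property (dz a) LinearMap.id h
  have sec : ∀ e, dz a (σ e) = e := fun e => LinearMap.congr_fun hσ e
  have rk : Module.finrank ℤ (LinearMap.ker (dz a)) = n := by
    have k1 := Submodule.finrank_quotient_add_finrank (LinearMap.ker (dz a))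
    rw [((dz a).quotKerEquivOfSurjective h).finrank_eq, Module.finrank_fin_fun,
      Module.finrank_fin_fun] at k1
    omega
  let b := (Module.finBasisOfFinrankEq ℤ (LinearMap.ker (dz a)) rk).equivFun
  let p : (Fin N → ℤ) →ₗ[ℤ] LinearMap.ker (dz a) :=
    (LinearMap.id - σ ∘ₗ dz a).codRestrict _ fun v => by
      rw [LinearMap.mem_ker, LinearMap.sub_apply, map_sub, LinearMap.comp_apply, sec,
        LinearMap.id_apply, sub_self]
  refine ⟨⟨σ, (LinearMap.ker (dz a)).subtype ∘ₗ b.symm.toLinearMap, b.toLinearMap ∘ₗ p, sec,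
    fun m => (b.symm m).2, fun v => ?_, fun m => ?_⟩⟩
  · change ((b.symm (b (p v)) : LinearMap.ker (dz a)) : Fin N → ℤ) + _ = _
    rw [b.symm_apply_apply]
    exact sub_add_cancel v _
  · have e : p (b.symm m : LinearMap.ker (dz a)) = b.symm m := Subtype.ext (by
      change (b.symm m : Fin N → ℤ) - σ (dz a (b.symm m : Fin N → ℤ)) = _
      rw [LinearMap.mem_ker.1 (b.symm m).2, map_zero, sub_zero])
    change b (p (b.symm m : LinearMap.ker (dz a))) = m
    rw [e, b.apply_symm_apply]

end Vale.Agent.P283R.Cy
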