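import Vale.Agent.P283R.Cy.Sb

/-!
# P283R, block CY, row CIJ: the relations of the localized ring
-/

open Set MvPolynomial

noncomputable section

namespace Vale.Agent.P283R.Cy

open Vale.Agent.P287D Vale.Agent.P283M Vale.Agent.P283R.Cx
open Vale.Agent.P283R.To (mon mon_ne mon_add)

namespace Cj

variable {K : Type} [Field K] {k N n k' N' : ℕ} {a : Fin N → Fin k → ℤ} {s : Fin N → K}

theorem prod_sg (s : Fin N → K) (a : Fin N → Fin k → ℤ) (c : Fin N → ℕ) :
    ∏ j, AddMonoidAlgebra.single (a j) (s j) ^ c j =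
      AddMonoidAlgebra.single (dg a c) (∏ j, s j ^ c j) := by
  simp only [AddMonoidAlgebra.single_pow, AddMonoidAlgebra.prod_single]
  congr 1
  funext i
  simp [dg, Finset.sum_apply]

theorem aev_sum {A : Type} [CommRing A] [Algebra ℂ A] (g : Fin N → A)
    (p : MvPolynomial (Fin N) ℂ) : aeval g p = ∑ d ∈ p.support, coeff d p • ∏ j, g j ^ d j := by
  rw [aeval_def, eval₂_eq']
  simp only [Algebra.smul_def]

/-- the exponent of the monomial `z ^ c u ^ m` -/
def ex (r : Fin N' ≃ Fin k' ⊕ Fin n ⊕ Fin n) (c : Fin k' → ℕ) (m : Fin n → ℤ) (j : Fin N') : ℕ :=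
  Sum.elim c (Sum.elim (fun l => (m l).toNat) fun l => (-m l).toNat) (r j)

theorem ex_inl (r : Fin N' ≃ Fin k' ⊕ Fin n ⊕ Fin n) (c : Fin k' → ℕ) (m : Fin n → ℤ)
    (i : Fin k') : ex r c m (r.symm (.inl i)) = c i := by simp [ex]

theorem ex_sum (r : Fin N' ≃ Fin k' ⊕ Fin n ⊕ Fin n) (c : Fin k' → ℕ) (m : Fin n → ℤ) :
    ∑ j, (ex r c m j : ℤ) • gJ (r j) = m := by
  rw [← r.symm.sum_comp]
  funext l
  simp only [ex, Equiv.apply_symm_apply, Fintype.sum_sum_type, gJ, Sum.elim_inl, Sum.elim_inr,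
    Pi.zero_apply, Finset.sum_const_zero, zero_add, Finset.sum_apply,
    Pi.smul_apply, Pi.neg_apply, Pi.single_apply, smul_eq_mul, mul_neg, mul_ite, mul_one,
    mul_zero, Finset.sum_neg_distrib, Finset.sum_ite_eq, Finset.mem_univ, if_true]
  omega

section un

variable {Q : Type} [CommRing Q]

/-- products of powers of units -/
def un (w : Fin n → Qˣ) (m : Fin n → ℤ) : Qˣ :=
  (Fintype.linearCombination ℤ (fun l => Additive.ofMul (w l)) m).toMul

theorem un_sum {ι : Type} [Fintype ι] (w : Fin n → Qˣ) (d : ι → ℕ) (v : ι → Fin n → ℤ) :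
    (un w (∑ j, (d j : ℤ) • v j) : Q) = ∏ j, (un w (v j) : Q) ^ d j := by
  simp only [un, map_sum, map_smul, toMul_sum, toMul_zsmul, zpow_natCast, Units.coe_prod,
    Units.val_pow_eq_pow_val]

theorem un_add (w : Fin n → Qˣ) (m m' : Fin n → ℤ) :
    (un w (m + m') : Q) = un w m * un w m' := by
  simp only [un, map_add, toMul_add, Units.val_mul]

theorem prod_un (r : Fin N' ≃ Fin k' ⊕ Fin n ⊕ Fin n) (w : Fin n → Qˣ) (g : Fin N' → Q)
    (h1 : ∀ l, g (r.symm (.inr (.inl l))) = w l) (h2 : ∀ l, g (r.symm (.inr (.inr l))) = (w l)⁻¹)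
    (d : Fin N' → ℕ) : ∏ j, g j ^ d j = (∏ i, g (r.symm (.inl i)) ^ d (r.symm (.inl i))) *
      un w (∑ j, (d j : ℤ) • gJ (r j)) := by
  rw [un_sum, ← r.symm.prod_comp, ← r.symm.prod_comp]
  simp [gJ, un, h1, h2]

end un

/-- the old variables in terms of the new ones -/
def ka (S : Spl a n) (e : Fin k' → Fin N) (r : Fin N' ≃ Fin k' ⊕ Fin n ⊕ Fin n) (j : Fin N) :
    MvPolynomial (Fin N') ℂ :=
  ∏ j', X j' ^ ex r (fun i => if e i = j then 1 else 0) (S.ρ (Pi.single j 1)) j'

variable [Algebra ℂ K]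

/-- the kernel of the old presentation is mapped to the kernel of the new one -/
theorem sup (S : Spl a n) (hs : ∀ j, s j ≠ 0) (e : Fin k' → Fin N)
    (r : Fin N' ≃ Fin k' ⊕ Fin n ⊕ Fin n) (p : MvPolynomial (Fin N) ℂ)
    (hp : aeval (fun j => AddMonoidAlgebra.single (a j) (s j)) p = 0) :
    aeval (fun j => AddMonoidAlgebra.single (S.aj e r j) (S.sj s r j)) (aeval (ka S e r) p) = 0 := by
  let θ : AddMonoidAlgebra K (Fin k → ℤ) →ₐ[K] AddMonoidAlgebra K (Fin k' → ℤ) :=
    AddMonoidAlgebra.lift K _ _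
      { toFun b := .single (S.σ b.toAdd ∘ e) (mon s (-S.σ b.toAdd))
        map_one' := by simp [mon, AddMonoidAlgebra.one_def]
        map_mul' := fun b b' => by
          rw [AddMonoidAlgebra.single_mul_single, ← mon_add hs, toAdd_mul, map_add, neg_add]
          rfl }
  have h : (aeval fun j => AddMonoidAlgebra.single (S.aj e r j) (S.sj s r j)).comp
      (aeval (ka S e r)) = (θ.restrictScalars ℂ).comp
        (aeval fun j => AddMonoidAlgebra.single (a j) (s j)) := algHom_ext fun j => by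
    have d : S.μ (S.ρ (Pi.single j 1)) = Pi.single j 1 + -S.σ (a j) := by
      have := S.dec (Pi.single j 1)
      rw [dz_single] at this
      exact eq_add_neg_of_add_eq this
    simp only [AlgHom.comp_apply, aeval_X, ka, map_prod, map_pow, prod_sg, S.prod hs, ex_sum, θ,
      AlgHom.coe_restrictScalars', AddMonoidAlgebra.lift_single, MonoidHom.coe_mk, OneHom.coe_mk,
      toAdd_ofAdd, AddMonoidAlgebra.smul_single, smul_eq_mul, d, mon_add hs]
    congr 1
    · funext i
      rw [S.deg, ex_sum, ex_inl, d]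
      by_cases c : e i = j <;> simp [c]
    · congr 1
      simp [mon, Pi.single_apply]
  rw [← AlgHom.comp_apply, h, AlgHom.comp_apply, hp, map_zero]

omit [Algebra ℂ K] in
/-- the old monomials in a ring where `u u' = 1` -/
theorem ka_prod {Q : Type} [CommRing Q] [Algebra ℂ Q] (S : Spl a n) {e : Fin k' → Fin N}
    (r : Fin N' ≃ Fin k' ⊕ Fin n ⊕ Fin n) (w : Fin n → Qˣ) (g : Fin N' → Q)
    (h1 : ∀ l, g (r.symm (.inr (.inl l))) = w l) (h2 : ∀ l, g (r.symm (.inr (.inr l))) = (w l)⁻¹)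
    (x : Fin N → ℕ) : ∏ j, aeval g (ka S e r j) ^ x j =
      (∏ i, g (r.symm (.inl i)) ^ x (e i)) * un w (S.ρ fun j => x j) := by
  have e1 : (fun j => (x j : ℤ)) = ∑ j, (x j : ℤ) • Pi.single j 1 := by
    funext i
    simp [Finset.sum_apply, Pi.single_apply]
  rw [e1, map_sum]
  simp only [map_smul, un_sum, ka, map_prod, map_pow, aeval_X, prod_un r w g h1 h2, ex_sum, ex_inl,
    mul_pow, Finset.prod_mul_distrib, ← Finset.prod_pow, ← pow_mul]
  congr 1
  rw [Finset.prod_comm]
  refine Finset.prod_congr rfl fun i _ => ?_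
  rw [Finset.prod_pow_eq_pow_sum]
  simp

/-- one degree -/
theorem kill {Q ι : Type} [CommRing Q] [Algebra ℂ Q] (S : Spl a n) (hs : ∀ j, s j ≠ 0)
    {e : Fin k' → Fin N} (he : Function.Injective e) (r : Fin N' ≃ Fin k' ⊕ Fin n ⊕ Fin n)
    (w : Fin n → Qˣ) (g : Fin N' → Q) (h1 : ∀ l, g (r.symm (.inr (.inl l))) = w l)
    (h2 : ∀ l, g (r.symm (.inr (.inr l))) = (w l)⁻¹)
    (hk : ∀ p : MvPolynomial (Fin N) ℂ, aeval (fun j => AddMonoidAlgebra.single (a j) (s j)) p = 0 →
      aeval g (aeval (ka S e r) p) = 0) (T : Finset ι) (γ : ι → ℂ) (d : ι → Fin N' → ℕ)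
    (β : Fin k' → ℤ) (hd : ∀ x ∈ T, dg (S.aj e r) (d x) = β)
    (h0 : ∑ x ∈ T, γ x • ∏ j, S.sj s r j ^ d x j = 0) : ∑ x ∈ T, γ x • ∏ j, g j ^ d x j = 0 := by
  let m : ι → Fin n → ℤ := fun x => ∑ j, (d x j : ℤ) • gJ (r j)
  let v : Fin N → ℤ := Function.extend e β fun j => ∑ x ∈ T, |S.μ (m x) j|
  have ve : ∀ x ∈ T, ∀ i, S.μ (m x) (e i) + v (e i) = d x (r.symm (.inl i)) := fun x hx i => by
    have := S.deg e r (d x) i
    rw [hd x hx] at this
    simp only [v, he.extend_apply, this, m]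
    ring
  have v0 : ∀ x ∈ T, ∀ j, 0 ≤ S.μ (m x) j + v j := fun x hx j => by
    by_cases c : ∃ i, e i = j
    · obtain ⟨i, rfl⟩ := c
      rw [ve x hx]
      positivity
    · have := Finset.single_le_sum (f := fun x => |S.μ (m x) j|) (fun _ _ => abs_nonneg _) hx
      simp only [v, Function.extend_apply' _ _ _ c]
      linarith [neg_abs_le (S.μ (m x) j)]
  let c : ι → Fin N → ℕ := fun x j => (S.μ (m x) j + v j).toNat
  have hc : ∀ x ∈ T, (fun j => (c x j : ℤ)) = S.μ (m x) + v := fun x hx =>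
    funext fun j => Int.toNat_of_nonneg (v0 x hx j)
  have := hk (∑ x ∈ T, γ x • ∏ j, X j ^ c x j) (by
    simp only [map_sum, map_smul, map_prod, map_pow, aeval_X, prod_sg]
    rw [Finset.sum_congr rfl (g := fun x => AddMonoidAlgebra.singleAddHom (dz a v)
      (mon s v * (γ x • ∏ j, S.sj s r j ^ d x j))) fun x hx => ?_, ← map_sum, ← Finset.mul_sum, h0,
      mul_zero, map_zero]
    rw [← dz_nat, ← mon_nat, hc x hx, map_add, S.ker, zero_add, mon_add hs, S.prod hs,
      AddMonoidAlgebra.smul_single, mul_smul_comm, mul_comm]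
    rfl)
  simp only [map_sum, map_smul, map_prod, map_pow, aeval_X, ka_prod S r w g h1 h2] at this
  rw [Finset.sum_congr rfl (g := fun x => un w (S.ρ v) * (γ x • ∏ j, g j ^ d x j)) fun x hx => ?_,
    ← Finset.mul_sum] at this
  · exact (Units.mul_right_eq_zero _).1 this
  · rw [hc x hx, map_add, S.inv, un_add, prod_un r w g h1 h2, mul_smul_comm]
    have : ∀ i, c x (e i) = d x (r.symm (.inl i)) := fun i => by
      simp only [c, ve x hx, Int.toNat_natCast]
    simp only [this, m]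
    congr 1
    ring

end Cj

open Cj in
/-- **CIJ** -/
theorem cij : CIJ := by
  intro K _ _ k N n k' N' s a S e r hs he c f ci
  classical
  let u : Fin n → MvPolynomial (Fin N') ℂ := fun l =>
    X (r.symm (.inr (.inl l))) * X (r.symm (.inr (.inr l))) - 1
  let f' : Fin (c + n) → MvPolynomial (Fin N') ℂ := Fin.append (fun i => aeval (ka S e r) (f i)) u
  refine ⟨f', le_antisymm (fun G hG => ?_) (Ideal.span_le.2 ?_)⟩
  · let I := Ideal.span (range f')
    let g : Fin N' → MvPolynomial (Fin N') ℂ ⧸ I := fun j => Ideal.Quotient.mk I (X j)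
    have hg : ∀ p, aeval g p = Ideal.Quotient.mk I p := fun p => DFunLike.congr_fun
      (show aeval g = Ideal.Quotient.mkₐ ℂ I from algHom_ext fun j => by simp [g]) p
    have hu : ∀ l, g (r.symm (.inr (.inl l))) * g (r.symm (.inr (.inr l))) = 1 := fun l => by
      have : Ideal.Quotient.mk I (u l) = 0 := Ideal.Quotient.eq_zero_iff_mem.2
        (Ideal.subset_span ⟨Fin.natAdd c l, by simp [f']⟩)
      simpa [u, g, sub_eq_zero] using this
    let w : Fin n → (MvPolynomial (Fin N') ℂ ⧸ I)ˣ := fun l =>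
      ⟨_, _, hu l, (mul_comm _ _).trans (hu l)⟩
    have hk : ∀ p : MvPolynomial (Fin N) ℂ,
        aeval (fun j => AddMonoidAlgebra.single (a j) (s j)) p = 0 →
          aeval g (aeval (ka S e r) p) = 0 := fun p hp => by
      have : p ∈ Ideal.span (range f) := ci ▸ hp
      rw [hg, Ideal.Quotient.eq_zero_iff_mem]
      refine (Ideal.span_le (I := I.comap (aeval (R := ℂ) (ka S e r)))).2 ?_ this
      rintro _ ⟨i, rfl⟩
      exact Ideal.subset_span ⟨Fin.castAdd n i, by simp [f']⟩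
    rw [← Ideal.Quotient.eq_zero_iff_mem, ← hg, aev_sum, ← Finset.sum_fiberwise_of_maps_to
      (g := fun d : Fin N' →₀ ℕ => dg (S.aj e r) d) fun d hd =>
        Finset.mem_image_of_mem (fun d : Fin N' →₀ ℕ => dg (S.aj e r) d) hd]
    refine Finset.sum_eq_zero fun β _ => kill S hs he r w g (fun _ => rfl) (fun _ => rfl) hk _ _ _ β
      (fun x hx => (Finset.mem_filter.1 hx).2) ?_
    rw [RingHom.mem_ker, aev_sum] at hG
    have := congrArg (fun F : AddMonoidAlgebra K (Fin k' → ℤ) => F.coeff β) hG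
    simp only [prod_sg, AddMonoidAlgebra.smul_single, AddMonoidAlgebra.coeff_sum,
      AddMonoidAlgebra.coeff_single, Finsupp.finsetSum_apply, Finsupp.single_apply] at this
    rw [Finset.sum_filter]
    exact this
  · rintro _ ⟨i, rfl⟩
    refine Fin.addCases (fun i => ?_) (fun l => ?_) i
    · have : f i ∈ Ideal.span (range f) := Ideal.subset_span ⟨i, rfl⟩
      rw [← ci] at this
      simp only [f', Fin.append_left]
      exact sup S hs e r _ this
    · simp only [f', Fin.append_right, u, SetLike.mem_coe, RingHom.mem_ker, map_sub, map_mul,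
        aeval_X, map_one, AddMonoidAlgebra.single_mul_single, Spl.aj, Spl.sj,
        Equiv.apply_symm_apply, ← mon_add hs, gJ, zJ, Sum.elim_inl, Sum.elim_inr, map_neg,
        add_neg_cancel, sub_eq_zero]
      rw [AddMonoidAlgebra.one_def]
      congr 1
      · funext i
        simp
      · simp [mon]

end Vale.Agent.P283R.Cy
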