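import Vale.Agent.P283R.Cy.Hly
import Vale.Agent.P283R.Cy.Cij
import Vale.Agent.P283R.Cy.Cxj
import Vale.Agent.P283R.Cy.Lat
import Vale.Agent.P283R.Cy.Vtj
import Vale.Agent.P283R.Cy.Wtj
import Vale.Agent.P283R.Cy.Mdb
import Vale.Agent.P283R.Cy.Tpb
import Vale.Agent.P283R.Cy.Mkf
import Vale.Agent.P283R.Cx.All

/-!
# P283R, block CY: the index does not depend on the number of divisors
-/

namespace Vale.Agent.P283R.Cy

/-- **HLY** -/
theorem hly : HLY := hly_of lat cxj cij wtj vtj

theorem mcT : MC True := hly True (mk_of mdb Cx.coru)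

theorem mkF : MK False := Cx.mkf_of Cx.corp

theorem mcF : MC False := hly False mkF

/-- birational contractions, any number of divisors -/
theorem qz (c n : ℕ) : QzAt c n := qz_of tpb mcT c n

end Vale.Agent.P283R.Cy
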