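import Vale.Agent.P283R.Cy.Sb
import Vale.Agent.P283R.He.Doi

/-!
# P283R, block CY: integer Helly
-/

open Set

noncomputable section

namespace Vale.Agent.P283R.Cy

open Vale.Agent.P287D Vale.Agent.P283M Vale.Agent.P283R.Cx Vale.Agent.P297Z
open Vale.Agent.P283R.To (mon mon_ne mon_add ord_mon)

namespace Hl

variable {K : Type} [Field K] [Algebra ℂ K] {d k N n k' N' q : ℕ} {a : Fin N → Fin k → ℤ}
  {s : Fin N → K}

theorem exists_dg {e : Fin k → ℤ} {x : K} (hx : x ∈ Sp s a e) (h0 : x ≠ 0) : ∃ c, dg a c = e := by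
  by_contra h
  have : {c | dg a c = e} = ∅ := Set.eq_empty_of_forall_notMem fun c hc => h ⟨c, hc⟩
  rw [Sp, this, image_empty, Submodule.span_empty] at hx
  exact h0 hx

theorem surj {T : Set (Pl K)} {D : Pl K → Fin k → ℤ} (h : Cox T D s a) :
    Function.Surjective (dz a) := fun e => by
  obtain ⟨e', b, hb, c, hc, b0, c0⟩ := h.fr1 e
  obtain ⟨u, hu⟩ := exists_dg hb b0
  obtain ⟨v, hv⟩ := exists_dg hc c0
  exact ⟨(fun j => (u j : ℤ)) - fun j => (v j : ℤ), by rw [map_sub, dz_nat, dz_nat, hu, hv]; simp⟩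

theorem ord_tw (hs : ∀ j, s j ≠ 0) (P : Pl K) {x : K} (hx : x ≠ 0) (v : Fin N → ℤ) :
    P.ord (x * mon s (-v)) = P.ord x - P.ord (mon s v) := by
  rw [Pl.ord_mul _ hx (mon_ne hs _), ord_mon P hs, ord_mon P hs]
  simp [sub_eq_add_neg]

theorem ld_iff {y : Fin d → K} {m : ℕ} (hq : 0 < q) (hm : 0 < m) {h x : K} (h0 : h ≠ 0)
    (x0 : x ≠ 0) (Q : Pl K) : 0 < ld y (q * m) (h ^ m * x) Q ↔
      (Q.ord x : ℝ) < m * (q * (1 + kap y Q) - Q.ord h) := by
  have : (0 : ℝ) < (q * m : ℕ) := by exact_mod_cast Nat.mul_pos hq hm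
  rw [ld, sub_pos, div_lt_iff₀ this, Pl.ord_mul _ (pow_ne_zero _ h0) x0, Pl.ord_pow]
  push_cast
  constructor <;> intro h <;> linarith

theorem lin (φ : (Fin n → ℤ) →ₗ[ℤ] (Fin N → ℤ)) (v : Fin n → ℤ) (j : Fin N) :
    φ v j = ∑ l, v l * φ (Pi.single l 1) j := by
  conv_lhs => rw [pi_eq_sum_univ' v]
  simp only [map_sum, map_smul, Finset.sum_apply, Pi.smul_apply, smul_eq_mul]

theorem lin_ord (hs : ∀ j, s j ≠ 0) (Q : Pl K) (φ : (Fin n → ℤ) →ₗ[ℤ] (Fin N → ℤ))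
    (v : Fin n → ℤ) : Q.ord (mon s (φ v)) = ∑ l, v l * Q.ord (mon s (φ (Pi.single l 1))) := by
  simp only [ord_mon Q hs, Finset.mul_sum]
  rw [Finset.sum_comm]
  refine Finset.sum_congr rfl fun j _ => ?_
  rw [lin, Finset.sum_mul]
  exact Finset.sum_congr rfl fun l _ => mul_assoc _ _ _

/-- the localized data -/
theorem dx (cxj : CXJ) (cij : CIJ) (wtj : WTJ) {c : ℕ} {ε : ℝ} {y : Fin d → K} {T : Set (Pl K)}
    {D : Pl K → Fin k → ℤ} {f : Fin c → MvPolynomial (Fin N) ℂ} {h g : K} {δ b : Fin k → ℤ}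
    (X : Dx q ε y T D s a f h g δ b) (S : Spl a n) {e : Fin k' → Fin N}
    (he : Function.Injective e) (r : Fin N' ≃ Fin k' ⊕ Fin n ⊕ Fin n) :
    ∃ f' : Fin (c + n) → MvPolynomial (Fin N') ℂ, Dx q ε y (TJ T D s a e) (DJ D s a e) (S.sj s r)
      (S.aj e r) f' (h * mon s (-S.σ δ)) (g * mon s (-S.σ b)) (S.σ δ ∘ e) (S.σ b ∘ e) := by
  have hs := X.cox.ne
  obtain ⟨f', hf⟩ := cij K k N n k' N' s a S e r hs he c f X.ci
  obtain ⟨w1, w2⟩ := wtj K k N n k' N' s a S e r hs he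
  refine ⟨f', X.ff, X.fr, cxj K k N n k' N' s a S e r hs he T D X.cox, hf,
    mul_ne_zero X.h0 (mon_ne hs _), mul_ne_zero X.g0 (mon_ne hs _),
    S.toW hs e r _ ((S.sec b).symm ▸ X.gs), fun E hE => ?_, w1 d q ε y h δ X.h0 X.hw, w2 δ b X.lw⟩
  have := X.eq E hE.1
  rw [ord_tw hs E X.h0, ord_tw hs E X.g0, ord_TJ hs he hE, ord_TJ hs he hE, S.sec, S.sec]
  push_cast at this ⊢
  linarith

end Hl

open Hl in
theorem hly_of (lat : LAT) (cxj : CXJ) (cij : CIJ) (wtj : WTJ) (vtj : VTJ) : HLY := by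
  intro t H c d q ε hq hε
  choose m m2 hm using fun k' => H (c + (d + c)) d k' q ε hq hε
  have m0 : ∀ i, 0 < m i := fun i => by have := m2 i; omega
  set M := ∏ i ∈ Finset.range (2 ^ (d + c) + (d + c) + 1), m i with hM
  have M0 : 0 < M := Finset.prod_pos fun i _ => m0 i
  have hd : ∀ i ≤ 2 ^ (d + c) + (d + c), m i ∣ M := fun i hi =>
    Finset.dvd_prod_of_mem _ (Finset.mem_range.2 (by omega))
  refine ⟨M, (m2 0).trans (Nat.le_of_dvd M0 (hd 0 (Nat.zero_le _))),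
    fun k K _ _ y T D s a f h g δ b X ht Q hQ => ?_⟩
  have hs := X.cox.ne
  obtain ⟨S⟩ := lat k (d + c) _ a (by omega) (surj X.cox)
  obtain ⟨t₀, t1, t2⟩ := vtj K k _ _ s a S Q hs hQ
  have h' : h * mon s (-S.σ δ) ≠ 0 := mul_ne_zero X.h0 (mon_ne hs _)
  obtain ⟨v, v1, v2⟩ := He.helly_rays Finset.univ (fun j l => (S.μ (Pi.single l 1) j : ℝ))
    (fun j => (M : ℝ) * S.σ δ j) (fun l => (Q.ord (mon s (S.μ (Pi.single l 1))) : ℝ))
    (M * (q * (1 + kap y Q) - Q.ord (h * mon s (-S.σ δ)))) fun J _ hJ => by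
      let e := (J ∪ t₀).orderEmbOfFin rfl
      have he : ∀ j ∈ J ∪ t₀, j ∈ range e := fun j hj => by
        rw [Finset.range_orderEmbOfFin]; exact hj
      let r : Fin (d + (J ∪ t₀).card + (c + (d + c))) ≃
        Fin (J ∪ t₀).card ⊕ Fin (d + c) ⊕ Fin (d + c) := Fintype.equivOfCardEq (by simp; omega)
      obtain ⟨f', X'⟩ := dx cxj cij wtj X S e.injective r
      obtain ⟨u, u1, u2⟩ := hm _ K y _ _ _ _ f' _ _ _ _ X' (fun h β => by
          obtain ⟨φ, φ1, φ2⟩ := ht h (dz a (Function.extend e β 0))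
          exact ⟨_, Function.extend_comp e.injective β 0 ▸ S.toW hs e r _ φ1,
            mul_ne_zero φ2 (mon_ne hs _)⟩) Q
        (t2 _ _ e r fun j hj => he j (Finset.mem_union_right _ hj))
      obtain ⟨v, v1, v2⟩ := (S.mon_iff hs e r _ _).1 ⟨u, u1, rfl⟩
      rw [← v2, ld_iff hq (m0 _) h' (mon_ne hs _), lin_ord hs] at u2
      obtain ⟨l, hl⟩ := hd _ ((Finset.card_union_le J t₀).trans (add_le_add hJ t1))
      have l0 : (0 : ℝ) < l := by
        exact_mod_cast Nat.pos_of_ne_zero fun h => by rw [h] at hl; omega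
      refine ⟨(l : ℤ) • v, fun j hj => ?_, ?_⟩
      · obtain ⟨i, rfl⟩ := he j (Finset.mem_union_left _ hj)
        have := v1 i
        rw [lin] at this
        have : (0 : ℝ) ≤ -(m (J ∪ t₀).card * S.σ δ (e i)) +
            ∑ l, (v l : ℝ) * S.μ (Pi.single l 1) (e i) := by exact_mod_cast this
        have := mul_nonneg l0.le this
        simp only [hl, Pi.smul_apply, smul_eq_mul, Int.cast_mul, Int.cast_natCast, mul_assoc,
          ← Finset.mul_sum, Nat.cast_mul]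
        linarith
      · have := mul_lt_mul_of_pos_left u2 l0
        push_cast at this
        simp only [hl, Pi.smul_apply, smul_eq_mul, Int.cast_mul, Int.cast_natCast, mul_assoc,
          ← Finset.mul_sum, Nat.cast_mul]
        linarith
  have e1 : (fun j => (((S.μ v j - M * S.σ δ j).toNat : ℕ) : ℤ)) = S.μ v + -((M : ℤ) • S.σ δ) :=
    funext fun j => by
      have : (M : ℤ) * S.σ δ j ≤ S.μ v j := by
        rw [lin S.μ]; exact_mod_cast v1 j (Finset.mem_univ j)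
      simp only [Pi.add_apply, Pi.neg_apply, Pi.smul_apply, smul_eq_mul]
      omega
  refine ⟨fun j => (S.μ v j - M * S.σ δ j).toNat, ?_, ?_⟩
  · rw [← dz_nat, e1, map_add, map_neg, map_smul, S.ker, S.sec, zero_add]
  · rw [← mon_nat, e1, ld_iff hq M0 X.h0 (mon_ne hs _), mon_add hs,
      ord_tw hs Q (mon_ne hs _), lin_ord hs]
    rw [ord_tw hs Q X.h0] at v2
    have : Q.ord (mon s ((M : ℤ) • S.σ δ)) = M * Q.ord (mon s (S.σ δ)) := by
      simp only [ord_mon Q hs, Pi.smul_apply, smul_eq_mul, mul_assoc, Finset.mul_sum]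
    rw [this]
    push_cast at v2 ⊢
    linarith

end Vale.Agent.P283R.Cy
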