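import Vale.Agent.P283R.Cy.St
import Vale.Agent.P283R.Cx.Bas

/-!
# P283R, block CY: the localized data (statements and basic tools)

All the generators `s j` with `j` outside the range of `e` are inverted.
-/

open Set

noncomputable section

namespace Vale.Agent.P283R.Cy

open Vale.Agent.P287D Vale.Agent.P283M Vale.Agent.P283R.Cx
open Vale.Agent.P283R.To (mon mon_ne mon_add ord_mon)

section defs

variable {K : Type} [Field K] [Algebra ℂ K] {d k N n k' N' : ℕ}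

/-- the degree of a Laurent monomial -/
def dz (a : Fin N → Fin k → ℤ) : (Fin N → ℤ) →ₗ[ℤ] (Fin k → ℤ) := Fintype.linearCombination ℤ a

/-- a splitting of the degree map -/
structure Spl (a : Fin N → Fin k → ℤ) (n : ℕ) where
  σ : (Fin k → ℤ) →ₗ[ℤ] (Fin N → ℤ)
  μ : (Fin n → ℤ) →ₗ[ℤ] (Fin N → ℤ)
  ρ : (Fin N → ℤ) →ₗ[ℤ] (Fin n → ℤ)
  sec : ∀ e, dz a (σ e) = e
  ker : ∀ m, dz a (μ m) = 0
  dec : ∀ v, μ (ρ v) + σ (dz a v) = v
  inv : ∀ m, ρ (μ m) = m

/-- the coefficient of `P` in the divisor of the generator `j` -/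
def dv (D : Pl K → Fin k → ℤ) (s : Fin N → K) (a : Fin N → Fin k → ℤ) (P : Pl K) (j : Fin N) : ℤ :=
  P.ord (s j) + a j ⬝ᵥ D P

/-- the prime divisors that remain -/
def TJ (T : Set (Pl K)) (D : Pl K → Fin k → ℤ) (s : Fin N → K) (a : Fin N → Fin k → ℤ)
    (e : Fin k' → Fin N) : Set (Pl K) := {P | P ∈ T ∧ ∀ j ∉ range e, dv D s a P j = 0}

/-- the new divisors -/
def DJ (D : Pl K → Fin k → ℤ) (s : Fin N → K) (a : Fin N → Fin k → ℤ) (e : Fin k' → Fin N)
    (P : Pl K) (i : Fin k') : ℤ := dv D s a P (e i)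

/-- the unit part of the new generators -/
def gJ : Fin k' ⊕ Fin n ⊕ Fin n → Fin n → ℤ :=
  Sum.elim 0 (Sum.elim (fun l => Pi.single l 1) fun l => -Pi.single l 1)

/-- the torus part of the new generators -/
def zJ : Fin k' ⊕ Fin n ⊕ Fin n → Fin k' → ℤ := Sum.elim (fun i => Pi.single i 1) 0

variable {a : Fin N → Fin k → ℤ}

/-- the new generators -/
def Spl.sj (S : Spl a n) (s : Fin N → K) (r : Fin N' ≃ Fin k' ⊕ Fin n ⊕ Fin n) (j : Fin N') : K :=
  mon s (S.μ (gJ (r j)))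

/-- their degrees -/
def Spl.aj (S : Spl a n) (e : Fin k' → Fin N) (r : Fin N' ≃ Fin k' ⊕ Fin n ⊕ Fin n) (j : Fin N') :
    Fin k' → ℤ := zJ (r j) - S.μ (gJ (r j)) ∘ e

end defs

/-- a property of the localized data -/
def ForJ (p : ∀ (K : Type) [Field K] [Algebra ℂ K] (k N n k' N' : ℕ) (_ : Fin N → K)
    (a : Fin N → Fin k → ℤ), Spl a n → (Fin k' → Fin N) → (Fin N' ≃ Fin k' ⊕ Fin n ⊕ Fin n) →
      Prop) : Prop :=
  ∀ (K : Type) [Field K] [Algebra ℂ K] (k N n k' N' : ℕ) (s : Fin N → K) (a : Fin N → Fin k → ℤ)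
    (S : Spl a n) (e : Fin k' → Fin N) (r : Fin N' ≃ Fin k' ⊕ Fin n ⊕ Fin n), (∀ j, s j ≠ 0) →
    Function.Injective e → p K k N n k' N' s a S e r

/-- **LAT**: the splitting exists -/
def LAT : Prop := ∀ (k n : ℕ) (N : ℕ) (a : Fin N → Fin k → ℤ), N = n + k →
  Function.Surjective (dz a) → Nonempty (Spl a n)

/-- **CXJ**: the ring of the sections -/
def CXJ : Prop := ForJ fun _ _ _ _ _ _ _ _ s a S e r => ∀ T D, Cox T D s a →
  Cox (TJ T D s a e) (DJ D s a e) (S.sj s r) (S.aj e r)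

/-- **CIJ**: the relations -/
def CIJ : Prop := ForJ fun _ _ _ _ N n _ N' s a S e r =>
  ∀ (c : ℕ) (f : Fin c → MvPolynomial (Fin N) ℂ), CI s a f →
    ∃ f' : Fin (c + n) → MvPolynomial (Fin N') ℂ, CI (S.sj s r) (S.aj e r) f'

/-- **WTJ**: the weights -/
def WTJ : Prop := ForJ fun K _ _ _ _ _ _ _ s a S e r =>
  (∀ (d q : ℕ) (ε : ℝ) (y : Fin d → K) (h : K) δ, h ≠ 0 → HW q ε y s a h δ →
    HW q ε y (S.sj s r) (S.aj e r) (h * mon s (-S.σ δ)) (S.σ δ ∘ e)) ∧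
  ∀ δ b, LW a δ b → LW (S.aj e r) (S.σ δ ∘ e) (S.σ b ∘ e)

/-- **VTJ**: the place lies over the base of the localization -/
def VTJ : Prop := ∀ (K : Type) [Field K] [Algebra ℂ K] (k N n : ℕ) (s : Fin N → K)
  (a : Fin N → Fin k → ℤ) (S : Spl a n) (Q : Pl K), (∀ j, s j ≠ 0) → Vt s a Q →
    ∃ t : Finset (Fin N), t.card ≤ n ∧ ∀ (k' N' : ℕ) (e : Fin k' → Fin N)
      (r : Fin N' ≃ Fin k' ⊕ Fin n ⊕ Fin n), (∀ j ∈ t, j ∈ range e) → Vt (S.sj s r) (S.aj e r) Q

section tools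

variable {K : Type} [Field K] {k N n k' N' : ℕ} {a : Fin N → Fin k → ℤ} {s : Fin N → K}

theorem dz_apply (v : Fin N → ℤ) (i : Fin k) : dz a v i = ∑ j, v j * a j i := by
  simp [dz, Fintype.linearCombination_apply, Finset.sum_apply]

theorem dz_nat (c : Fin N → ℕ) : dz a (fun j => c j) = dg a c :=
  funext fun i => dz_apply _ i

theorem dz_single (j : Fin N) : dz a (Pi.single j 1) = a j := by
  simp [dz]

theorem mon_nat (s : Fin N → K) (c : Fin N → ℕ) : mon s (fun j => c j) = ∏ j, s j ^ c j := by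
  simp [mon]

theorem mon_neg (s : Fin N → K) (v : Fin N → ℤ) : mon s (-v) = (mon s v)⁻¹ := by
  simp [mon]

theorem mon_sum {ι : Type} [Fintype ι] (hs : ∀ j, s j ≠ 0) (v : ι → Fin N → ℤ) (c : ι → ℕ) :
    mon s (∑ l, (c l : ℤ) • v l) = ∏ l, mon s (v l) ^ c l := by
  classical
  refine Finset.induction_on (motive := fun t : Finset ι =>
    mon s (∑ l ∈ t, (c l : ℤ) • v l) = ∏ l ∈ t, mon s (v l) ^ c l) Finset.univ ?_ ?_
  · simp [mon]
  · intro l t hl ih
    rw [Finset.sum_insert hl, Finset.prod_insert hl, mon_add hs, ih]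
    congr 1
    simp only [mon, Pi.smul_apply, smul_eq_mul, ← Finset.prod_pow]
    exact Finset.prod_congr rfl fun j _ => by rw [mul_comm, zpow_mul, zpow_natCast]

theorem Spl.of_ker (S : Spl a n) {v : Fin N → ℤ} (h : dz a v = 0) : S.μ (S.ρ v) = v := by
  simpa [h] using S.dec v

theorem Spl.s_ne (S : Spl a n) (hs : ∀ j, s j ≠ 0) (r : Fin N' ≃ Fin k' ⊕ Fin n ⊕ Fin n)
    (j : Fin N') : S.sj s r j ≠ 0 := mon_ne hs _

theorem Spl.prod (S : Spl a n) (hs : ∀ j, s j ≠ 0) (r : Fin N' ≃ Fin k' ⊕ Fin n ⊕ Fin n)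
    (c : Fin N' → ℕ) : ∏ j, S.sj s r j ^ c j = mon s (S.μ (∑ j, (c j : ℤ) • gJ (r j))) := by
  simp only [map_sum, map_smul, mon_sum hs, Spl.sj]

theorem Spl.deg (S : Spl a n) (e : Fin k' → Fin N) (r : Fin N' ≃ Fin k' ⊕ Fin n ⊕ Fin n)
    (c : Fin N' → ℕ) (i : Fin k') : dg (S.aj e r) c i =
      c (r.symm (.inl i)) - S.μ (∑ j, (c j : ℤ) • gJ (r j)) (e i) := by
  have : ∑ j, (c j : ℤ) * zJ (r j) i = c (r.symm (.inl i)) := by
    rw [← r.symm.sum_comp]
    simp [zJ, Pi.single_apply]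
  simp only [dg, Spl.aj, Pi.sub_apply, mul_sub, Finset.sum_sub_distrib, this, map_sum, map_smul,
    Finset.sum_apply, Pi.smul_apply, smul_eq_mul, Function.comp_apply]

/-- the monomials in the new generators -/
theorem Spl.mon_iff (S : Spl a n) (hs : ∀ j, s j ≠ 0) (e : Fin k' → Fin N)
    (r : Fin N' ≃ Fin k' ⊕ Fin n ⊕ Fin n) (β : Fin k' → ℤ) (x : K) :
    (∃ c, dg (S.aj e r) c = β ∧ ∏ j, S.sj s r j ^ c j = x) ↔
      ∃ m, (∀ i, 0 ≤ β i + S.μ m (e i)) ∧ mon s (S.μ m) = x := by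
  constructor
  · rintro ⟨c, rfl, rfl⟩
    exact ⟨_, fun i => by rw [S.deg]; omega, (S.prod hs r c).symm⟩
  · rintro ⟨m, hm, rfl⟩
    let c : Fin N' → ℕ := fun j => Sum.elim (fun i => (β i + S.μ m (e i)).toNat)
      (Sum.elim (fun l => (m l).toNat) fun l => (-m l).toNat) (r j)
    have : ∑ j, (c j : ℤ) • gJ (r j) = m := by
      rw [← r.symm.sum_comp]
      funext l
      simp only [c, Equiv.apply_symm_apply, Fintype.sum_sum_type, gJ, Sum.elim_inl, Sum.elim_inr,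
        Pi.zero_apply, smul_zero, Finset.sum_const_zero, zero_add, Pi.add_apply, Finset.sum_apply,
        Pi.smul_apply, Pi.neg_apply, Pi.single_apply, smul_eq_mul, mul_neg, mul_ite, mul_one,
        mul_zero, Finset.sum_neg_distrib, Finset.sum_ite_eq, Finset.mem_univ, if_true]
      omega
    refine ⟨c, funext fun i => ?_, by rw [S.prod hs, this]⟩
    have := hm i
    rw [S.deg, ‹∑ j, (c j : ℤ) • gJ (r j) = m›]
    simp only [c, Equiv.apply_symm_apply, Sum.elim_inl]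
    omega

variable [Algebra ℂ K]

theorem Spl.sp (S : Spl a n) (hs : ∀ j, s j ≠ 0) (e : Fin k' → Fin N)
    (r : Fin N' ≃ Fin k' ⊕ Fin n ⊕ Fin n) (β : Fin k' → ℤ) : Sp (S.sj s r) (S.aj e r) β =
      Submodule.span ℂ ((fun m => mon s (S.μ m)) '' {m | ∀ i, 0 ≤ β i + S.μ m (e i)}) :=
  congrArg _ (Set.ext fun x => S.mon_iff hs e r β x)

/-- sections of the old ring are sections of the new ring -/
theorem Spl.toW (S : Spl a n) (hs : ∀ j, s j ≠ 0) (e : Fin k' → Fin N)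
    (r : Fin N' ≃ Fin k' ⊕ Fin n ⊕ Fin n) (v : Fin N → ℤ) {x : K} (hx : x ∈ Sp s a (dz a v)) :
    x * mon s (-v) ∈ Sp (S.sj s r) (S.aj e r) (v ∘ e) := by
  rw [S.sp hs]
  induction hx using Submodule.span_induction with
  | mem x hx =>
    obtain ⟨c, hc, rfl⟩ := hx
    have h : S.μ (S.ρ ((fun j => (c j : ℤ)) + -v)) = (fun j => (c j : ℤ)) + -v :=
      S.of_ker (by rw [map_add, map_neg, dz_nat, hc.out, add_neg_cancel])
    refine Submodule.subset_span ⟨S.ρ ((fun j => (c j : ℤ)) + -v), fun i => ?_, ?_⟩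
    · rw [h]; simp
    · simp only [h, mon_add hs, mon_nat]
  | zero => simp
  | add x y _ _ hx hy => rw [add_mul]; exact add_mem hx hy
  | smul c x _ hx => rw [smul_mul_assoc]; exact Submodule.smul_mem _ c hx

theorem ord_dv (hs : ∀ j, s j ≠ 0) (D : Pl K → Fin k → ℤ) (P : Pl K) (v : Fin N → ℤ) :
    P.ord (mon s v) + dz a v ⬝ᵥ D P = ∑ j, v j * dv D s a P j := by
  simp only [ord_mon P hs, dv, mul_add, Finset.sum_add_distrib, dz,
    Fintype.linearCombination_apply, sum_dotProduct, smul_dotProduct, smul_eq_mul]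

/-- on the remaining prime divisors the new divisors are linearly equivalent to the old ones -/
theorem ord_TJ (hs : ∀ j, s j ≠ 0) {T : Set (Pl K)} {D : Pl K → Fin k → ℤ} {e : Fin k' → Fin N}
    (he : Function.Injective e) {P : Pl K} (hP : P ∈ TJ T D s a e) (v : Fin N → ℤ) :
    (v ∘ e) ⬝ᵥ DJ D s a e P = P.ord (mon s v) + dz a v ⬝ᵥ D P := by
  classical
  rw [ord_dv hs]
  refine Finset.sum_of_injOn e he.injOn (fun _ _ => Finset.mem_univ _) (fun j _ hj => ?_)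
    fun _ _ => rfl
  rw [hP.2 j (by simpa using hj), mul_zero]

end tools

end Vale.Agent.P283R.Cy
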