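import Vale.Agent.P283R.Cx.Su

/-!
# P283R, block CY: any number of divisors, bounded codimension (statements)
-/

open Set

noncomputable section

namespace Vale.Agent.P283R.Cy

open Vale.Agent.P287D Vale.Agent.P283M Vale.Agent.P283R.Cx

section defs

variable {K : Type} [Field K] [Algebra ℂ K] {d k N : ℕ}

/-- the pairing of an integral and a real vector -/
def pa {ι : Type} [Fintype ι] (e : ι → ℤ) (ξ : ι → ℝ) : ℝ := ∑ i, (e i : ℝ) * ξ i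

/-- `ε`-lc and nef, in terms of weights -/
def HW (q : ℕ) (ε : ℝ) (y : Fin d → K) (s : Fin N → K) (a : Fin N → Fin k → ℤ) (h : K)
    (δ : Fin k → ℤ) : Prop :=
  ∀ (P : Pl K) (ξ : Fin k → ℝ), (∀ j, 0 ≤ (P.ord (s j) : ℝ) + pa (a j) ξ) →
    ε ≤ 1 + kap y P - ((P.ord h : ℝ) + pa δ ξ) / q

/-- `-(K + B)` is pseudo-effective and `-K` is big -/
def LW (a : Fin N → Fin k → ℤ) (δ b : Fin k → ℤ) : Prop :=
  ∀ ξ : Fin k → ℝ, (∀ j, 0 ≤ pa (a j) ξ) → pa δ ξ ≤ 0 ∧ (ξ ≠ 0 → pa δ ξ < pa b ξ)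

/-- a monomial section of `-q m (K + B)` which is klt at `Q` -/
def MN (q m : ℕ) (y : Fin d → K) (s : Fin N → K) (a : Fin N → Fin k → ℤ) (h : K) (δ : Fin k → ℤ)
    (Q : Pl K) : Prop :=
  ∃ c, dg a c = -((m : ℤ) • δ) ∧ 0 < ld y (q * m) (h ^ m * ∏ j, s j ^ c j) Q

/-- the data -/
structure Dx (q : ℕ) (ε : ℝ) {c : ℕ} (y : Fin d → K) (T : Set (Pl K)) (D : Pl K → Fin k → ℤ)
    (s : Fin N → K) (a : Fin N → Fin k → ℤ) (f : Fin c → MvPolynomial (Fin N) ℂ) (h g : K)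
    (δ b : Fin k → ℤ) : Prop where
  ff : FF K d
  fr : Frm y
  cox : Cox T D s a
  ci : CI s a f
  h0 : h ≠ 0
  g0 : g ≠ 0
  gs : g ∈ Sp s a b
  eq : ∀ E ∈ T, (E.ord h + δ ⬝ᵥ D E : ℤ) = q * kap y E + (E.ord g + b ⬝ᵥ D E : ℤ)
  hw : HW q ε y s a h δ
  lw : LW a δ b

/-- `Q` lies over the base and is not trivial on the base -/
def Vt (s : Fin N → K) (a : Fin N → Fin k → ℤ) (Q : Pl K) : Prop :=
  (∀ c, dg a c = 0 → 0 ≤ Q.ord (∏ j, s j ^ c j)) ∧ ∃ x ∈ Sp s a 0, x ≠ 0 ∧ 0 < Q.ord x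

end defs

/-- the statement at one place; for `t` true all degrees have sections -/
def MID (t : Prop) (c d k q : ℕ) (ε : ℝ) (m : ℕ) : Prop :=
  ∀ (K : Type) [Field K] [Algebra ℂ K] (y : Fin d → K) (T : Set (Pl K)) (D : Pl K → Fin k → ℤ)
    (s : Fin (d + k + c) → K) (a : Fin (d + k + c) → Fin k → ℤ)
    (f : Fin c → MvPolynomial (Fin (d + k + c)) ℂ) (h g : K) (δ b : Fin k → ℤ),
    Dx q ε y T D s a f h g δ b → (t → ∀ e, ∃ φ ∈ Sp s a e, φ ≠ 0) →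
    ∀ Q, Vt s a Q → MN q m y s a h δ Q

/-- bounded number of divisors -/
def MK (t : Prop) : Prop := ∀ (c d k q : ℕ) (ε : ℝ), 0 < q → 0 < ε →
  ∃ m, 2 ≤ m ∧ MID t c d k q ε m

/-- any number of divisors -/
def MC (t : Prop) : Prop := ∀ (c d q : ℕ) (ε : ℝ), 0 < q → 0 < ε →
  ∃ m, 2 ≤ m ∧ ∀ k, MID t c d k q ε m

/-- **HLY**: integer Helly -/
def HLY : Prop := ∀ t, MK t → MC t

/-- **the tier statement**: birational contractions, the index does not depend on `k` -/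
def QzAt (c n : ℕ) : Prop := ∀ (q : ℕ) (ε : ℝ), 0 < q → 0 < ε → ∃ N : ℕ, 1 ≤ N ∧
  ∀ k, QxB c k n q ε N

/-- **MDB**: from the finite groups to the torus -/
def MDB : Prop := ∀ (c d k q m : ℕ) (ε : ℝ), 0 < q → 0 < ε →
  CorB c d k q (min ε 1) m → MID True c d k q ε m

/-- **TPB**: the tier side -/
def TPB : Prop := ∀ (c k n q m : ℕ) (ε : ℝ), 0 < q → 0 < ε → 2 ≤ m →
  MID True c (n + 1) k q ε m → QxB c k n q ε (q * m)

theorem mk_of (h : MDB) (h' : CORu) : MK True := fun c d k q ε hq hε =>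
  let ⟨m, m2, H⟩ := h' d k q (min ε 1) hq (lt_min hε one_pos)
  ⟨m, m2, h c d k q m ε hq hε (H c)⟩

theorem qz_of (h : TPB) (h' : MC True) (c n : ℕ) : QzAt c n := fun q ε hq hε =>
  let ⟨m, m2, H⟩ := h' c (n + 1) q ε hq hε
  ⟨q * m, Nat.mul_pos hq (by omega), fun k => h c k n q m ε hq hε m2 (H k)⟩

end Vale.Agent.P283R.Cy
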